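import Vale.Agent.P212.Bundle.Near

/-!
P212 bundles: the holonomy cocycle above the top level, the torus coordinates of a weighted
simplex and the phases of the cocycle.
-/

open Complex (I)

namespace VP212.Bundle

variable {T : Tower} {n M : ℕ} (X : TopLift T n M) (r : ℕ)

/-- A chosen point over a vertex. -/
noncomputable def base (v : Vert T) : LPt X :=
  ((zi v).1, (zi v).2, Classical.choose (Over.exists X (zi v) (wTop n v)))

theorem over_base (v : Vert T) : Over X (base X v) v :=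
  ⟨rfl, rfl, Classical.choose_spec (Over.exists X (zi v) (wTop n v))⟩

theorem Adj.mono {j k : ℕ} {p q : LPt X} (h : Adj X j p q) (hjk : j ≤ k) : Adj X k p q := by
  obtain ⟨h1, h2, w, hw, hw'⟩ := h
  exact ⟨by omega, by omega, w, by omega, hw'⟩

/-- A vertex of the component high above the top. -/
def High (n r : ℕ) (v : Vert T) : Prop := v.n = n ∧ T.top n + r ≤ v.l

/-- The holonomy from `v` to `u`. -/
noncomputable def hol (v u : Vert T) : ℤ × ℤ × ZMod M := by
  classical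
  exact if h : ∃ e : ℤ × ℤ × ZMod M, Adj X r (base X v) (deck X e.1 e.2.1 e.2.2 (base X u))
    then h.choose else 0

theorem hol_spec {v u : Vert T} (hv : High n r v) (h : Near r v u) :
    Adj X r (base X v) (deck X (hol X r v u).1 (hol X r v u).2.1 (hol X r v u).2.2 (base X u)) := by
  obtain ⟨p, hp⟩ := h
  obtain ⟨-, q, hq, hpq⟩ := lift_walk X p hv.1 (by have := hv.2; omega) (over_base X v)
  obtain ⟨a, b, c, hc⟩ := deck_exists X (over_base X u) hq
  have he : ∃ e : ℤ × ℤ × ZMod M, Adj X r (base X v) (deck X e.1 e.2.1 e.2.2 (base X u)) :=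
    ⟨(a, b, c), by rw [hc]; exact hpq.mono X hp⟩
  rw [hol, dif_pos he]
  exact he.choose_spec

theorem hol_cocycle (hL : X.Loops (3 * r + 2)) (hn : 4 * r < n + 3) {v u w : Vert T}
    (hv : High n r v) (hu : High n r u) (h : Near r v u) (h' : Near r u w) (h'' : Near r v w) :
    (hol X r v w).1 = (hol X r v u).1 + (hol X r u w).1 ∧
    (hol X r v w).2.1 = (hol X r v u).2.1 + (hol X r u w).2.1 ∧
    (hol X r v w).2.2 = (hol X r v u).2.2 + (hol X r u w).2.2 -
      ((hol X r u w).1 : ZMod M) * (hol X r v u).2.1 := by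
  have h1 := deck_adj X (hol X r v u).1 (hol X r v u).2.1 (hol X r v u).2.2 (hol_spec X r hu h')
  rw [deck_deck] at h1
  have h2 := (hol_spec X r hv h).trans X h1
  have h3 := hol_spec X r hv h''
  have h4 := adj_unique X (j := r) (k := r + r) hL (by omega) (by omega) (by omega)
    (deck_over X (over_base X w)) (deck_over X (over_base X w)) h3 h2
  exact deck_unique X h4 (over_base X w)

theorem hol_dlt {v u : Vert T} (hv : High n r v) (h : Near r v u) (hn : 4 * r < n + 3) :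
    (dlt n v u).1 = (zi u).1 - (zi v).1 + (n + 3 : ℤ) * (hol X r v u).1 ∧
    (dlt n v u).2 = (zi u).2 - (zi v).2 + (n + 3 : ℤ) * (hol X r v u).2.1 := by
  obtain ⟨h1, h2, -⟩ := hol_spec X r hv h
  simp only [deck, base] at h1 h2
  have h0 : ((n + 3 : ℤ) : ZMod (n + 3)) = 0 := by exact_mod_cast ZMod.natCast_self (n + 3)
  have key : ∀ x y a : ℤ, |y + (n + 3 : ℤ) * a - x| ≤ r →
      ((y - x : ℤ) : ZMod (n + 3)).valMinAbs = y - x + (n + 3 : ℤ) * a := by
    intro x y a ha
    rw [← valMinAbs_eq (L := n + 3) (y - x + (n + 3 : ℤ) * a)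
      (by rw [sub_add_eq_add_sub]; omega)]
    rw [Int.cast_add (y - x), Int.cast_mul, h0, zero_mul, add_zero]
  exact ⟨key _ _ _ h1, key _ _ _ h2⟩

variable (n) in
/-- Torus coordinates, seen from `v`, of the weights `x` on the finite set `S`. -/
noncomputable def qd (S : Finset (Vert T)) (v : Vert T) (x : Vert T → ℝ) : ℝ × ℝ :=
  (((zi v).1 + ∑ u ∈ S, x u * (dlt n v u).1) / (n + 3),
    ((zi v).2 + ∑ u ∈ S, x u * (dlt n v u).2) / (n + 3))

/-- The weights `x` form a small simplex inside `S`. -/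
structure Wts (n r : ℕ) (S : Finset (Vert T)) (x : Vert T → ℝ) : Prop where
  sum : ∑ u ∈ S, x u = 1
  comp : ∀ u ∈ S, x u ≠ 0 → u.n = n
  near : ∀ v ∈ S, ∀ u ∈ S, x v ≠ 0 → x u ≠ 0 → Near r v u

variable {X r} {S : Finset (Vert T)} {x : Vert T → ℝ}

theorem qd_sub (hx : Wts n r S x) (hn : 4 * r < n + 3) {v u : Vert T} (hv : v ∈ S) (hu : u ∈ S)
    (hv0 : x v ≠ 0) (hu0 : x u ≠ 0) :
    (qd n S v x).1 = (qd n S u x).1 + ((zi v).1 - (zi u).1 + (dlt n v u).1 : ℤ) / (n + 3 : ℝ) ∧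
    (qd n S v x).2 = (qd n S u x).2 + ((zi v).2 - (zi u).2 + (dlt n v u).2 : ℤ) / (n + 3 : ℝ) := by
  have key : ∀ f : ℤ × ℤ → ℤ, (∀ p q, f (p.1 + q.1, p.2 + q.2) = f p + f q) →
      ∑ w ∈ S, x w * (f (dlt n v w) : ℝ) =
        (f (dlt n v u) : ℝ) + ∑ w ∈ S, x w * (f (dlt n u w) : ℝ) := by
    intro f hf
    have : ∀ w ∈ S, x w * (f (dlt n v w) : ℝ) =
        x w * (f (dlt n v u) : ℝ) + x w * (f (dlt n u w) : ℝ) := by
      intro w hw
      by_cases h0 : x w = 0
      · simp [h0]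
      · rw [dlt_add (hx.near v hv u hu hv0 hu0) (hx.near u hu w hw hu0 h0) (hx.comp v hv hv0) hn,
          hf]
        push_cast
        ring
    rw [Finset.sum_congr rfl this, Finset.sum_add_distrib, ← Finset.sum_mul, hx.sum, one_mul]
  have k1 := key Prod.fst fun _ _ => rfl
  have k2 := key Prod.snd fun _ _ => rfl
  constructor <;> simp only [qd] <;> rw [← add_div] <;> congr 1 <;> push_cast <;> linarith

theorem qd_shift (hx : Wts n r S x) (hn : 4 * r < n + 3) {v u : Vert T} (hv : v ∈ S) (hu : u ∈ S)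
    (hv0 : x v ≠ 0) (hu0 : x u ≠ 0) :
    ∃ k l : ℤ, (qd n S v x).1 = (qd n S u x).1 + k ∧ (qd n S v x).2 = (qd n S u x).2 + l := by
  obtain ⟨e1, e2⟩ := qd_sub hx hn hv hu hv0 hu0
  obtain ⟨-, -, d1, d2⟩ := dlt_spec (hx.near v hv u hu hv0 hu0) (hx.comp v hv hv0) (by omega)
  have key : ∀ a : ℤ, (a : ZMod (n + 3)) = 0 → ∃ k : ℤ, (a : ℝ) / (n + 3 : ℝ) = k := by
    intro a ha
    obtain ⟨k, rfl⟩ := (ZMod.intCast_zmod_eq_zero_iff_dvd a (n + 3)).1 ha
    exact ⟨k, by push_cast; field_simp⟩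
  obtain ⟨k, hk⟩ := key ((zi v).1 - (zi u).1 + (dlt n v u).1) (by push_cast; rw [d1]; ring)
  obtain ⟨l, hl⟩ := key ((zi v).2 - (zi u).2 + (dlt n v u).2) (by push_cast; rw [d2]; ring)
  exact ⟨k, l, by rw [e1, hk], by rw [e2, hl]⟩

theorem qd_hol (hx : Wts n r S x) (hn : 4 * r < n + 3) {v u : Vert T} (hv : v ∈ S) (hu : u ∈ S)
    (hv0 : x v ≠ 0) (hu0 : x u ≠ 0) (hvh : High n r v) :
    (qd n S v x).1 = (qd n S u x).1 + (hol X r v u).1 ∧
    (qd n S v x).2 = (qd n S u x).2 + (hol X r v u).2.1 := by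
  obtain ⟨e1, e2⟩ := qd_sub hx hn hv hu hv0 hu0
  obtain ⟨d1, d2⟩ := hol_dlt X r hvh (hx.near v hv u hu hv0 hu0) hn
  constructor
  · rw [e1, d1]; push_cast; field_simp; ring
  · rw [e2, d2]; push_cast; field_simp; ring

variable (X r) in
/-- The angle of the phase between two vertices. -/
noncomputable def ang (S : Finset (Vert T)) (v u : Vert T) (x : Vert T → ℝ) : ℝ :=
  2 * Real.pi * (((hol X r v u).2.2.val : ℝ) + (hol X r v u).1 * (qd n S v x).2) / M

variable (X r) in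
/-- The phase between two vertices. -/
noncomputable def phase (S : Finset (Vert T)) (v u : Vert T) (x : Vert T → ℝ) : ℂ :=
  Complex.exp (ang X r S v u x * I)

theorem norm_phase (v u : Vert T) : ‖phase X r S v u x‖ = 1 :=
  Complex.norm_exp_ofReal_mul_I _

theorem phase_ne_zero (v u : Vert T) : phase X r S v u x ≠ 0 := Complex.exp_ne_zero _

theorem phase_mul [NeZero M] (hL : X.Loops (3 * r + 2)) (hn : 4 * r < n + 3) (hx : Wts n r S x)
    (hS : ∀ u ∈ S, x u ≠ 0 → High n r u) {v u w : Vert T} (hv : v ∈ S) (hu : u ∈ S) (hw : w ∈ S)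
    (hv0 : x v ≠ 0) (hu0 : x u ≠ 0) (hw0 : x w ≠ 0) :
    phase X r S v u x * phase X r S u w x = phase X r S v w x := by
  obtain ⟨ha, -, hc⟩ := hol_cocycle X r hL hn (hS v hv hv0) (hS u hu hu0)
    (hx.near v hv u hu hv0 hu0) (hx.near u hu w hw hu0 hw0) (hx.near v hv w hw hv0 hw0)
  obtain ⟨-, ht⟩ := qd_hol (X := X) hx hn hv hu hv0 hu0 (hS v hv hv0)
  obtain ⟨q, hq⟩ : (M : ℤ) ∣ ((hol X r v u).2.2.val : ℤ) + (hol X r u w).2.2.val -
      (hol X r u w).1 * (hol X r v u).2.1 - (hol X r v w).2.2.val := by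
    rw [← ZMod.intCast_zmod_eq_zero_iff_dvd]
    push_cast
    rw [ZMod.natCast_zmod_val, ZMod.natCast_zmod_val, ZMod.natCast_zmod_val, hc]
    ring
  have hM : (M : ℝ) ≠ 0 := by exact_mod_cast NeZero.ne M
  have hq' : ((hol X r v u).2.2.val : ℝ) + (hol X r u w).2.2.val -
      (hol X r u w).1 * (hol X r v u).2.1 - (hol X r v w).2.2.val = M * q := by exact_mod_cast hq
  have e : ang X r S v u x + ang X r S u w x = ang X r S v w x + q * (2 * Real.pi) := by
    simp only [ang, ha, Int.cast_add]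
    field_simp
    linear_combination hq' - ((hol X r u w).1 : ℝ) * ht
  rw [phase, phase, phase, ← Complex.exp_add, ← add_mul, ← Complex.ofReal_add, e]
  push_cast
  rw [add_mul, Complex.exp_add, show (q : ℂ) * (2 * Real.pi) * I = q * (2 * Real.pi * I) by ring,
    Complex.exp_int_mul_two_pi_mul_I, mul_one]

theorem phase_pow [NeZero M] (v u : Vert T) :
    phase X r S v u x ^ (M : ℤ) =
      Complex.exp (2 * Real.pi * I * ((hol X r v u).1 * (qd n S v x).2 : ℝ)) := by
  have hM : (M : ℂ) ≠ 0 := by exact_mod_cast NeZero.ne M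
  rw [phase, ← Complex.exp_int_mul, Int.cast_natCast]
  rw [show (M : ℂ) * (ang X r S v u x * I) =
      2 * Real.pi * I * ((hol X r v u).1 * (qd n S v x).2 : ℝ) +
        ((hol X r v u).2.2.val : ℤ) * (2 * Real.pi * I) by
    simp only [ang]; push_cast; field_simp; ring]
  rw [Complex.exp_add, Complex.exp_int_mul_two_pi_mul_I, mul_one]

end VP212.Bundle
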