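import Vale.Agent.P212.Bundle.Loop

/-!
P212 bundles: the path at its two ends and at the roots.
-/

open Complex (I)
open Matrix

namespace VP212.Bundle

variable {T : Tower} {n M : ℕ} {R : ℝ} {X : TopLift T n M} {r : ℕ} {S : Finset (Vert T)}
  {D : ℕ} {col : Vert T → Fin D} {α β : Type} [Fintype α] [DecidableEq α] [Fintype β]
  [DecidableEq β] {ea : α → ℤ} {eb : β → ℤ} {Q : ℕ} {q0 : Fin Q}
  {m : Vert T → Rips (Vert T) R → Matrix (Unit ⊕ β × Fin Q) (Unit ⊕ α × Fin Q) ℂ}
  {m' : Vert T → Rips (Vert T) R → Matrix (Unit ⊕ α × Fin Q) (Unit ⊕ β × Fin Q) ℂ}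
  {χ : Rips (Vert T) R → ℝ}

theorem fac_mul_orth {ι : Type} [Fintype ι] [DecidableEq ι] (z w : ℂ) {A B : Matrix ι ι ℂ}
    (h : A * B = 0) : fac z A * fac w B = 1 + z • A + w • B := by
  simp only [fac, Matrix.mul_add, Matrix.add_mul, Matrix.mul_one, Matrix.one_mul,
    Matrix.smul_mul, Matrix.mul_smul, h, smul_zero, add_zero]

theorem fac_alg {ι : Type} [Fintype ι] [DecidableEq ι] {z z' : ℂ} (hz : z + z' + z * z' = 0)
    {A B C : Matrix ι ι ℂ} :
    (A * C = 0 → A * B = 0 → B * C = 0 → C * B = 0 → B * B = B →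
      fac z (A + B) * fac z' C * fac z' B = fac z A * fac z' C) ∧
    (A * C = 0 → C * B = 0 → A * B = 0 → C * C = C →
      fac z (C + A) * fac z' C * fac z' B = 1 + z • A + z' • B) ∧
    (B * C = 0 → B * A = 0 → C * A = 0 → C * C = C →
      fac z B * fac z C * fac z' (C + A) = 1 + z' • A + z • B) := by
  refine ⟨fun h1 h2 h3 h4 h5 => ?_, fun h1 h2 h3 h4 => ?_, fun h1 h2 h3 h4 => ?_⟩
  all_goals
    simp only [fac, Matrix.mul_add, Matrix.add_mul, Matrix.mul_one, Matrix.one_mul,
      Matrix.smul_mul, Matrix.mul_smul, smul_add, smul_zero, add_zero, zero_add, *]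
  · linear_combination (norm := module) hz • B
  · linear_combination (norm := module) hz • C
  · linear_combination (norm := module) hz • C

theorem avg_const_mul (F : Vert T → Rips (Vert T) R → Matrix (Ix α β D Q) (Ix α β D Q) ℂ)
    (p : Rips (Vert T) R) (C : Matrix (Ix α β D Q) (Ix α β D Q) ℂ) (h : ∀ w, F w p * C = 0) :
    avg S F p * C = 0 := by
  simp [avg, Finset.sum_mul, h]

theorem PL_PC (p : Rips (Vert T) R) :
    PL (n := n) (D := D) (α := α) (β := β) S q0 p * PC q0 = 0 ∧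
      PC q0 * PL (n := n) (D := D) (α := α) (β := β) S q0 p = 0 := by
  have h : ∀ w : Vert T, (VL (n := n) S D α β q0 w p)ᴴ * V0 D α β q0 = 0 :=
    fun w => colMat_orth fun _ _ _ _ => by simp
  constructor
  · exact avg_const_mul _ p _ fun w => (proj_orth (h w)).1
  · simp only [PL, avg, Finset.mul_sum, Matrix.mul_smul, PC, (proj_orth (h _)).2, smul_zero,
      Finset.sum_const_zero]

theorem phi_root {y : ℝ × Rips (Vert T) R} (h1 : χ y.2 = 1) :
    Phi X r S col ea eb q0 m m' χ y =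
      1 + zc (th y.1) • PL (n := n) S q0 y.2 + zc (-th y.1) • PC q0 := by
  simp only [Phi, Pr, Pr', Hf, h1, mul_one, zc_one, zc_neg_one, fac, zero_smul, add_zero]
  exact fac_mul_orth _ _ (PL_PC y.2).1

theorem phi_null {y : ℝ × Rips (Vert T) R} (h0 : χ y.2 = 0) :
    Phi X r S col ea eb q0 m m' χ y = 1 ∧ Phi' X r S col ea eb q0 m m' χ y = 1 := by
  simp [Phi, Phi', Pr, Pr', Hf, Hf', fac, h0, zc_zero]

variable [NeZero M] {U : Set (Rips (Vert T) R)} (h : Setup X r U S col ea eb m m' χ)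
include h

theorem Setup.phi_start (p : Rips (Vert T) R) : Phi X r S col ea eb q0 m m' χ (0, p) = 1 := by
  have := (h.pr_inv (q0 := q0) (c := 1) (s := 0) (by norm_num) p).2
  simp only [Phi, Hf, th_zero, cA_zero.1, cA_zero.2, zero_mul, neg_zero, zc_zero, fac, zero_smul,
    add_zero, one_mul]
  exact this

theorem Setup.ends (p : Rips (Vert T) R) :
    Hf (n := n) (D := D) (α := α) (β := β) S q0 χ 1 p = Pr X r S col ea eb q0 m m' χ 1 0 p ∧
    Pr X r S col ea eb q0 m m' χ 0 1 p =
      1 + zc (χ p) • PA X r S col ea p + zc (-χ p) • PB X r S col eb p ∧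
    Pr' X r S col ea eb q0 m m' χ 0 1 p =
      1 + zc (-χ p) • PA X r S col ea p + zc (χ p) • PB X r S col eb p := by
  by_cases hp : p ∈ U
  swap
  · obtain ⟨e1, e2⟩ := h.zc_out hp
    simp [Hf, Pr, Pr', fac, th_one, e1, e2]
  obtain ⟨u, hu, hu0⟩ := exists_pos_weight (h.piece.wts p hp).sum
  have hpu : p ∈ Dom U u := ⟨hp, hu0⟩
  have hsum := (h.piece.wts p hp).sum
  have proj_eq : ∀ {κ : Type} [Fintype κ] [DecidableEq κ] {e : κ → ℤ}
      {V : Vert T → Rips (Vert T) R → Matrix (Ix α β D Q) κ ℂ}, Frame X r U S e V →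
      avg S (fun w p => V w p * (V w p)ᴴ) p = V u p * (V u p)ᴴ := by
    intro κ _ _ e V hV
    refine avg_eq hsum fun w hw hw0 => ?_
    have hpw : p ∈ Dom U w := ⟨hp, hw0⟩
    rw [hV.conj_trans hw hu hpw hpu, hV.trans w hw u hu p hpw hpu, Matrix.mul_assoc,
      ← Matrix.mul_assoc (change _ _) (change _ _), change_mul_inv _ (phase_ne_zero _ _),
      Matrix.one_mul]
  have eA0 : EA X r S col ea eb q0 m m' 1 0 p =
      VL (n := n) S D α β q0 u p * (VL (n := n) S D α β q0 u p)ᴴ +
        VB1 (α := α) (Q := Q) X r S col eb u p * (VB1 (α := α) (Q := Q) X r S col eb u p)ᴴ := by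
    rw [EA, ← fromCols_mul_fromRows, ← conjTranspose_fromCols_eq_fromRows_conjTranspose]
    simp only [rot_start]
    exact proj_eq (h.frameL (q0 := q0))
  have eA1 : EA X r S col ea eb q0 m m' 0 1 p =
      V1 D α β q0 * (V1 D α β q0)ᴴ + VA (β := β) (Q := Q) X r S col ea u p * (VA (β := β) (Q := Q) X r S col ea u p)ᴴ := by
    rw [EA, ← fromCols_mul_fromRows, ← conjTranspose_fromCols_eq_fromRows_conjTranspose]
    refine Eq.trans ?_ (proj_eq (h.frameR (q0 := q0)))
    exact avg_congr fun w hw hw0 => rot_end _ _ _ _ (h.link.inv w hw p ⟨hp, hw0⟩).2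
  have eC0 : EC (D := D) (α := α) (β := β) S q0 1 0 p = PC q0 := by
    rw [EC]
    refine Eq.trans ?_ (avg_eq (F := fun _ _ => PC q0) hsum (u := u) fun _ _ _ => rfl)
    exact avg_congr fun _ _ _ => rot_start _ _ _ _
  have eC1 : EC (D := D) (α := α) (β := β) S q0 0 1 p = V1 D α β q0 * (V1 D α β q0)ᴴ := by
    rw [EC]
    refine Eq.trans ?_ (avg_eq (F := fun _ _ => V1 D α β q0 * (V1 D α β q0)ᴴ) hsum (u := u)
      fun _ _ _ => rfl)
    exact avg_congr fun _ _ _ => rot_end _ _ _ _ (one_mul _)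
  have eB0 : EB (Q := Q) (α := α) X r S col eb 1 0 p =
      VB1 (α := α) (Q := Q) X r S col eb u p * (VB1 (α := α) (Q := Q) X r S col eb u p)ᴴ := by
    rw [EB]
    refine Eq.trans ?_ (proj_eq (frame_VB1 (α := α) (Q := Q) eb h.piece))
    exact avg_congr fun _ _ _ => rot_start _ _ _ _
  have eB1 : EB (Q := Q) (α := α) X r S col eb 0 1 p =
      VB2 (α := α) (Q := Q) X r S col eb u p * (VB2 (α := α) (Q := Q) X r S col eb u p)ᴴ := by
    rw [EB]
    refine Eq.trans ?_ (proj_eq (frame_VB2 (α := α) (Q := Q) eb h.piece))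
    exact avg_congr fun _ _ _ => rot_end _ _ _ _ (one_mul _)
  have ePA : PA (β := β) (Q := Q) X r S col ea p = VA (β := β) (Q := Q) X r S col ea u p * (VA (β := β) (Q := Q) X r S col ea u p)ᴴ :=
    proj_eq (frame_VA ea h.piece)
  have ePB : PB (α := α) (Q := Q) X r S col eb p = VB2 (α := α) (Q := Q) X r S col eb u p * (VB2 (α := α) (Q := Q) X r S col eb u p)ᴴ :=
    proj_eq (frame_VB2 eb h.piece)
  have ePL := h.PL_eq (q0 := q0) (h.piece.wts p hp) hu hu0
  obtain ⟨⟨o1, -, -, o4⟩, ⟨o5, o6⟩, ⟨o7, o8, o9⟩, -, -, o12⟩ :=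
    cross (X := X) (r := r) (S := S) (col := col) ea eb q0 u p
  have k := zc_pair (χ p)
  have iB := proj_idem ((frame_VB1 (Q := Q) (α := α) eb h.piece).orth u hu p hpu)
  have i1 := proj_idem ((frame_V1 (D := D) (α := α) (β := β) (X := X) (r := r) (S := S) (U := U) q0).orth u hu p hpu)
  refine ⟨?_, ?_, ?_⟩
  · rw [Hf, Pr, th_one, one_mul, eA0, eC0, eB0, ePL, PC]
    exact ((fac_alg k).1 (proj_orth o1).1 (proj_orth o4).1 (proj_orth o6).2 (proj_orth o6).1
      iB).symm
  · rw [Pr, eA1, eC1, eB1, ePA, ePB]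
    exact (fac_alg k).2.1 (proj_orth o7).2 (proj_orth o9).1 (proj_orth o12).1 i1
  · rw [Pr', eA1, eC1, eB1, ePA, ePB]
    exact (fac_alg k).2.2 (proj_orth o9).2 (proj_orth o12).2 (proj_orth o7).1 i1

theorem Setup.phi_end (p : Rips (Vert T) R) :
    Phi X r S col ea eb q0 m m' χ (1, p) =
      1 + zc (χ p) • PA X r S col ea p + zc (-χ p) • PB X r S col eb p ∧
    Phi' X r S col ea eb q0 m m' χ (1, p) =
      1 + zc (-χ p) • PA X r S col ea p + zc (χ p) • PB X r S col eb p := by
  obtain ⟨e0, e1, e2⟩ := h.ends (q0 := q0) p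
  obtain ⟨a, -⟩ := h.pr_inv (q0 := q0) (c := 1) (s := 0) (by norm_num) p
  have hH := (h.hf_inv (q0 := q0) 1 p).1
  simp only [Phi, Phi', cA_one.1, cA_one.2]
  rw [e0] at hH ⊢
  constructor
  · rw [a, Matrix.one_mul, e1]
  · rw [Matrix.mul_assoc, hH, Matrix.mul_one, e2]

omit [NeZero M] h in
/-- The final projections act alike on all copies. -/
theorem final_copies (p : Rips (Vert T) R) (c c' : Coord α β D) (x y : Fin Q) :
    PA (Q := Q) X r S col ea p (c, x) (c', y) =
        (if x = y then PA X r S col ea p (c, q0) (c', q0) else 0) ∧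
      PB (Q := Q) X r S col eb p (c, x) (c', y) =
        (if x = y then PB X r S col eb p (c, q0) (c', q0) else 0) := by
  simp only [PA, PB, avg, Matrix.sum_apply, Matrix.smul_apply, VA, VB2]
  constructor
  · by_cases hxy : x = y
    · rw [if_pos hxy]
      refine Finset.sum_congr rfl fun w _ => congrArg _ ?_
      refine (colMat_copies (fun k d => Coord.a k d) (fun k d => fr X r S col (ea k) w p d)
        c c' x y).trans (Eq.trans ?_ (colMat_copies (fun k d => Coord.a k d)
          (fun k d => fr X r S col (ea k) w p d) c c' q0 q0).symm)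
      rw [if_pos hxy, if_pos rfl]
    · rw [if_neg hxy]
      refine Finset.sum_eq_zero fun w _ => smul_eq_zero_of_right _ ?_
      exact (colMat_copies (fun k d => Coord.a k d) (fun k d => fr X r S col (ea k) w p d)
        c c' x y).trans (if_neg hxy)
  · by_cases hxy : x = y
    · rw [if_pos hxy]
      refine Finset.sum_congr rfl fun w _ => congrArg _ ?_
      refine (colMat_copies (fun k d => Coord.b2 k d) (fun k d => fr X r S col (eb k) w p d)
        c c' x y).trans (Eq.trans ?_ (colMat_copies (fun k d => Coord.b2 k d)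
          (fun k d => fr X r S col (eb k) w p d) c c' q0 q0).symm)
      rw [if_pos hxy, if_pos rfl]
    · rw [if_neg hxy]
      refine Finset.sum_eq_zero fun w _ => smul_eq_zero_of_right _ ?_
      exact (colMat_copies (fun k d => Coord.b2 k d) (fun k d => fr X r S col (eb k) w p d)
        c c' x y).trans (if_neg hxy)

end VP212.Bundle
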