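import Vale.Agent.P212.Bundle.Lines

/-!
P212 bundles: frames along the phase line, rotations between two of them, and the projections
they give on the Rips complex.
-/

open Complex (I)
open Matrix

namespace VP212.Bundle

/-- Continuous and bounded on a set. -/
def Good {Y : Type} [TopologicalSpace Y] (Ω : Set Y) (F : Y → ℂ) : Prop :=
  ContinuousOn F Ω ∧ ∃ C, ∀ y ∈ Ω, ‖F y‖ ≤ C

/-- All entries continuous and bounded on a set. -/
def GoodM {Y : Type} [TopologicalSpace Y] {κ μ : Type} (Ω : Set Y) (A : Y → Matrix κ μ ℂ) : Prop :=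
  ∀ i j, Good Ω fun y => A y i j

section Good

variable {Y Z : Type} [TopologicalSpace Y] [TopologicalSpace Z] {Ω : Set Y} {F G : Y → ℂ}
  {κ μ ν : Type} {A : Y → Matrix κ μ ℂ} {B : Y → Matrix μ ν ℂ}

theorem Good.const (c : ℂ) : Good Ω fun _ => c := ⟨continuousOn_const, ‖c‖, fun _ _ => le_rfl⟩

theorem Good.add (hF : Good Ω F) (hG : Good Ω G) : Good Ω fun y => F y + G y := by
  obtain ⟨h1, C, hC⟩ := hF
  obtain ⟨h2, C', hC'⟩ := hG
  exact ⟨h1.add h2, C + C', fun y hy => (norm_add_le _ _).trans (add_le_add (hC y hy) (hC' y hy))⟩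

theorem Good.mul (hF : Good Ω F) (hG : Good Ω G) : Good Ω fun y => F y * G y := by
  obtain ⟨h1, C, hC⟩ := hF
  obtain ⟨h2, C', hC'⟩ := hG
  refine ⟨h1.mul h2, max C 0 * C', fun y hy => ?_⟩
  rw [norm_mul]
  exact mul_le_mul ((hC y hy).trans (le_max_left _ _)) (hC' y hy) (norm_nonneg _) (le_max_right _ _)

theorem Good.conj (hF : Good Ω F) : Good Ω fun y => starRingEnd ℂ (F y) := by
  obtain ⟨h1, C, hC⟩ := hF
  exact ⟨Complex.continuous_conj.comp_continuousOn h1, C, fun y hy => by simpa using hC y hy⟩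

theorem Good.sum {ι : Type} {s : Finset ι} {F : ι → Y → ℂ} (h : ∀ i ∈ s, Good Ω (F i)) :
    Good Ω fun y => ∑ i ∈ s, F i y := by
  classical
  induction s using Finset.induction_on with
  | empty => simpa using Good.const 0
  | @insert a s ha ih =>
    simp only [Finset.sum_insert ha]
    exact (h a (Finset.mem_insert_self a s)).add (ih fun i hi => h i (Finset.mem_insert_of_mem hi))

theorem Good.comp {π : Z → Y} (hF : Good Ω F) (hπ : Continuous π) :
    Good (π ⁻¹' Ω) fun z => F (π z) := by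
  obtain ⟨h1, C, hC⟩ := hF
  exact ⟨h1.comp hπ.continuousOn fun z hz => hz, C, fun z hz => hC _ hz⟩

theorem good_of_continuous (hF : Continuous F) {C : ℝ} (hC : ∀ y, ‖F y‖ ≤ C) : Good Ω F :=
  ⟨hF.continuousOn, C, fun y _ => hC y⟩

theorem Good.squeeze (hF : Good Ω F) (hΩ : IsOpen Ω) {g : Y → ℂ} (hg : Continuous g)
    (h0 : ∀ y, y ∉ Ω → g y = 0) : Continuous fun y => g y * F y := by
  obtain ⟨h1, C, hC⟩ := hF
  refine continuous_iff_continuousAt.2 fun y => ?_
  by_cases hy : y ∈ Ω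
  · exact hg.continuousAt.mul (h1.continuousAt (hΩ.mem_nhds hy))
  · have hb : ∀ z, ‖g z * F z‖ ≤ ‖g z‖ * max C 0 := by
      intro z
      by_cases hz : z ∈ Ω
      · rw [norm_mul]
        exact mul_le_mul_of_nonneg_left ((hC z hz).trans (le_max_left _ _)) (norm_nonneg _)
      · simp [h0 z hz]
    have hlim : Filter.Tendsto (fun z => ‖g z‖ * max C 0) (nhds y) (nhds 0) := by
      have hc : Continuous fun z => ‖g z‖ * max C 0 := hg.norm.mul continuous_const
      simpa [h0 y hy] using hc.tendsto y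
    rw [ContinuousAt, h0 y hy, zero_mul]
    exact squeeze_zero_norm hb hlim

theorem GoodM.add {A' : Y → Matrix κ μ ℂ} (hA : GoodM Ω A) (hA' : GoodM Ω A') :
    GoodM Ω fun y => A y + A' y := fun i j => (hA i j).add (hA' i j)

theorem GoodM.smul (hF : Good Ω F) (hA : GoodM Ω A) : GoodM Ω fun y => F y • A y :=
  fun i j => hF.mul (hA i j)

theorem GoodM.mul [Fintype μ] (hA : GoodM Ω A) (hB : GoodM Ω B) : GoodM Ω fun y => A y * B y :=
  fun i j => by
    simp only [Matrix.mul_apply]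
    exact Good.sum fun k _ => (hA i k).mul (hB k j)

theorem GoodM.conj (hA : GoodM Ω A) : GoodM Ω fun y => (A y)ᴴ :=
  fun i j => (hA j i).conj

theorem GoodM.comp {π : Z → Y} (hA : GoodM Ω A) (hπ : Continuous π) :
    GoodM (π ⁻¹' Ω) fun z => A (π z) := fun i j => (hA i j).comp hπ

theorem GoodM.fromCols {C : Y → Matrix κ ν ℂ} (hA : GoodM Ω A) (hC : GoodM Ω C) :
    GoodM Ω fun y => Matrix.fromCols (A y) (C y) := by
  rintro i (j | j)
  · exact hA i j
  · exact hC i j

end Good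

section Cols

variable {ι κ κ' J J' : Type} [Fintype J] [Fintype J'] [DecidableEq ι]

/-- The matrix whose column `k` is the vector `f k` placed at the positions `s k`. -/
def colMat (s : κ → J → ι) (f : κ → J → ℂ) : Matrix ι κ ℂ :=
  Matrix.of fun i k => ∑ j, if s k j = i then f k j else 0

theorem colMat_mul_diagonal [Fintype κ] [DecidableEq κ] (s : κ → J → ι) (f : κ → J → ℂ) (c : κ → ℂ) :
    colMat s f * diagonal c = colMat s fun k j => f k j * c k := by
  ext i k
  simp [colMat, mul_diagonal, Finset.sum_mul, ite_mul]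

theorem colMat_inner [Fintype ι] (s : κ → J → ι) (f : κ → J → ℂ) (s' : κ' → J' → ι)
    (f' : κ' → J' → ℂ) (k : κ) (k' : κ') :
    ((colMat s f)ᴴ * colMat s' f') k k' =
      ∑ j, ∑ j', if s k j = s' k' j' then starRingEnd ℂ (f k j) * f' k' j' else 0 := by
  simp only [mul_apply, conjTranspose_apply, colMat, of_apply, star_sum, Finset.sum_mul,
    Finset.mul_sum]
  conv_lhs => enter [2, i]; rw [Finset.sum_comm]
  rw [Finset.sum_comm]
  refine Finset.sum_congr rfl fun j _ => ?_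
  rw [Finset.sum_comm]
  refine Finset.sum_congr rfl fun j' _ => ?_
  refine (Finset.sum_eq_single (s k j) (fun i _ hi => by simp [Ne.symm hi]) (by simp)).trans ?_
  by_cases hs : s k j = s' k' j'
  · simp [hs]
  · simp [hs, Ne.symm hs]

theorem colMat_orth [Fintype ι] {s : κ → J → ι} {f : κ → J → ℂ} {s' : κ' → J' → ι}
    {f' : κ' → J' → ℂ} (h : ∀ k j k' j', s k j ≠ s' k' j') :
    (colMat s f)ᴴ * colMat s' f' = 0 := by
  ext k k'
  rw [colMat_inner]
  simp [h]

theorem colMat_unit [Fintype ι] [DecidableEq κ] {s : κ → J → ι} {f : κ → J → ℂ}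
    (h : ∀ k j k' j', s k j = s k' j' → k = k' ∧ j = j')
    (h1 : ∀ k, ∑ j, f k j * starRingEnd ℂ (f k j) = 1) :
    (colMat s f)ᴴ * colMat s f = 1 := by
  classical
  ext k k'
  rw [colMat_inner, Matrix.one_apply]
  by_cases hk : k = k'
  · subst hk
    rw [if_pos rfl, ← h1 k]
    refine Finset.sum_congr rfl fun j _ => ?_
    rw [Finset.sum_eq_single j (fun j' _ hne => if_neg fun e => hne (h _ _ _ _ e).2.symm)
      (by simp), if_pos rfl, mul_comm]
  · rw [if_neg hk]
    exact Finset.sum_eq_zero fun j _ => Finset.sum_eq_zero fun j' _ =>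
      if_neg fun e => hk (h _ _ _ _ e).1

end Cols

section Frames

variable {T : Tower} {n M : ℕ} {R : ℝ} (X : TopLift T n M) (r : ℕ)
  (U : Set (Rips (Vert T) R)) (S : Finset (Vert T))
  {ι κ μ ν : Type} [Fintype ι] [DecidableEq ι] [Fintype κ] [DecidableEq κ] [Fintype μ]
  [DecidableEq μ] [Fintype ν] [DecidableEq ν]

/-- The change of frame between two vertices. -/
noncomputable def change (e : κ → ℤ) (g : ℂ) : Matrix κ κ ℂ := diagonal fun k => g ^ e k

theorem change_mul_inv (e : κ → ℤ) {g : ℂ} (hg : g ≠ 0) : change e g * change e g⁻¹ = 1 := by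
  rw [change, change, diagonal_mul_diagonal, ← diagonal_one]
  congr 1
  funext k
  rw [_root_.inv_zpow, mul_inv_cancel₀ (zpow_ne_zero _ hg)]

/-- An orthonormal family of sections of powers of the phase line. -/
structure Frame (e : κ → ℤ) (V : Vert T → Rips (Vert T) R → Matrix ι κ ℂ) : Prop where
  good : ∀ w ∈ S, GoodM (Dom U w) (V w)
  orth : ∀ w ∈ S, ∀ p ∈ Dom U w, (V w p)ᴴ * V w p = 1
  trans : ∀ v ∈ S, ∀ u ∈ S, ∀ p, p ∈ Dom U v → p ∈ Dom U u →
    V v p = V u p * change e (phase X r S v u (crd p))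

/-- An invertible map between two sums of powers of the phase line. -/
structure Link (e : κ → ℤ) (f : μ → ℤ) (m : Vert T → Rips (Vert T) R → Matrix κ μ ℂ)
    (m' : Vert T → Rips (Vert T) R → Matrix μ κ ℂ) : Prop where
  good : ∀ w ∈ S, GoodM (Dom U w) (m w) ∧ GoodM (Dom U w) (m' w)
  inv : ∀ w ∈ S, ∀ p ∈ Dom U w, m w p * m' w p = 1 ∧ m' w p * m w p = 1
  trans : ∀ v ∈ S, ∀ u ∈ S, ∀ p, p ∈ Dom U v → p ∈ Dom U u →
    m v p = change e (phase X r S v u (crd p))⁻¹ * m u p * change f (phase X r S v u (crd p)) ∧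
    m' v p = change f (phase X r S v u (crd p))⁻¹ * m' u p * change e (phase X r S v u (crd p))

omit [Fintype κ] in
theorem goodM_one {Y : Type} [TopologicalSpace Y] {Ω : Set Y} :
    GoodM Ω fun _ => (1 : Matrix κ κ ℂ) := fun _ _ => Good.const _

theorem Link.one (e : κ → ℤ) : Link X r U S e e (fun _ _ => 1) (fun _ _ => 1) := by
  refine ⟨fun w _ => ⟨goodM_one, goodM_one⟩, fun w _ p _ => ⟨one_mul _, one_mul _⟩,
    fun v _ u _ p _ _ => ?_⟩
  have := change_mul_inv e (inv_ne_zero (phase_ne_zero (X := X) (r := r) (S := S) (x := crd p) v u))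
  rw [inv_inv] at this
  rw [mul_one, this]
  exact ⟨rfl, rfl⟩

variable {X r U S}

theorem link_of_iso {e : κ → ℤ} {f : μ → ℤ} {m : Matrix κ μ (Fn U S)} {m' : Matrix μ κ (Fn U S)}
    (h1 : Deg (deg X r U S) e f m) (h2 : Deg (deg X r U S) f e m') (h3 : m * m' = 1)
    (h4 : m' * m = 1) :
    Link X r U S e f (fun w p => m.map fun x => ev x w p) (fun w p => m'.map fun x => ev x w p) := by
  classical
  have good : ∀ w ∈ S, ∀ x : Fn U S, Good (Dom U w) fun p => ev x w p := by
    intro w hw x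
    refine ⟨continuousOn_iff_continuous_domRestrict.2 ?_, ‖x ⟨w, hw⟩‖, fun p hp => ?_⟩
    · exact (x ⟨w, hw⟩).continuous.congr fun p => (ev_eq x hw p.2).symm
    · dsimp only
      rw [ev_eq x hw hp]
      exact (x ⟨w, hw⟩).norm_coe_le_norm _
  refine ⟨fun w hw => ⟨fun i j => good w hw _, fun i j => good w hw _⟩, fun w hw p hp => ?_,
    fun v hv u hu p hpv hpu => ?_⟩
  · constructor <;> ext i j
    · have := congrArg (fun x : Fn U S => x ⟨w, hw⟩ ⟨p, hp⟩) (congrFun (congrFun h3 i) j)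
      simp only [mul_apply, Finset.sum_apply, BoundedContinuousFunction.coe_sum, Pi.mul_apply,
        BoundedContinuousFunction.coe_mul, one_apply] at this
      simp only [mul_apply, map_apply, ev_eq _ hw hp, this, one_apply]
      split_ifs <;> rfl
    · have := congrArg (fun x : Fn U S => x ⟨w, hw⟩ ⟨p, hp⟩) (congrFun (congrFun h4 i) j)
      simp only [mul_apply, Finset.sum_apply, BoundedContinuousFunction.coe_sum, Pi.mul_apply,
        BoundedContinuousFunction.coe_mul, one_apply] at this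
      simp only [mul_apply, map_apply, ev_eq _ hw hp, this, one_apply]
      split_ifs <;> rfl
  · constructor <;> ext i j
    · simp only [map_apply, change, mul_diagonal, diagonal_mul, ev_eq _ hv hpv, ev_eq _ hu hpu,
        h1 i j ⟨v, hv⟩ ⟨u, hu⟩ p hpv hpu, _root_.inv_zpow']
      rw [neg_sub, sub_eq_add_neg, zpow_add₀ (phase_ne_zero _ _)]
      ring
    · simp only [map_apply, change, mul_diagonal, diagonal_mul, ev_eq _ hv hpv, ev_eq _ hu hpu,
        h2 i j ⟨v, hv⟩ ⟨u, hu⟩ p hpv hpu, _root_.inv_zpow']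
      rw [neg_sub, sub_eq_add_neg, zpow_add₀ (phase_ne_zero _ _)]
      ring

omit [DecidableEq ι] in
theorem Frame.conj_trans {e : κ → ℤ} {V : Vert T → Rips (Vert T) R → Matrix ι κ ℂ}
    (hV : Frame X r U S e V) {v u : Vert T} (hv : v ∈ S) (hu : u ∈ S) {p : Rips (Vert T) R}
    (hpv : p ∈ Dom U v) (hpu : p ∈ Dom U u) :
    (V v p)ᴴ = change e (phase X r S v u (crd p))⁻¹ * (V u p)ᴴ := by
  rw [hV.trans v hv u hu p hpv hpu, conjTranspose_mul, change, change, diagonal_conjTranspose]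
  congr 2
  funext k
  rw [Pi.star_apply, star_zpow₀, Complex.star_def, Complex.inv_eq_conj (norm_phase _ _)]

omit [DecidableEq ι] in
theorem Frame.sum {e : κ → ℤ} {f : μ → ℤ} {V : Vert T → Rips (Vert T) R → Matrix ι κ ℂ}
    {W : Vert T → Rips (Vert T) R → Matrix ι μ ℂ} (hV : Frame X r U S e V) (hW : Frame X r U S f W)
    (h0 : ∀ w ∈ S, ∀ p ∈ Dom U w, (V w p)ᴴ * W w p = 0) :
    Frame X r U S (Sum.elim e f) fun w p => fromCols (V w p) (W w p) := by
  refine ⟨fun w hw => (hV.good w hw).fromCols (hW.good w hw), fun w hw p hp => ?_,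
    fun v hv u hu p hpv hpu => ?_⟩
  · have h0' : (W w p)ᴴ * V w p = 0 := by
      rw [← conjTranspose_conjTranspose (V w p), ← conjTranspose_mul, h0 w hw p hp,
        conjTranspose_zero]
    rw [conjTranspose_fromCols_eq_fromRows_conjTranspose, fromRows_mul_fromCols, hV.orth w hw p hp, hW.orth w hw p hp,
      h0 w hw p hp, h0', fromBlocks_one]
  · ext i (j | j)
    · simp [change, mul_diagonal, hV.trans v hv u hu p hpv hpu]
    · simp [change, mul_diagonal, hW.trans v hv u hu p hpv hpu]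

/-- The projection turned by `(c, s)` from the range of `V` towards the range of `W`. -/
noncomputable def rot (V : Matrix ι κ ℂ) (W : Matrix ι μ ℂ) (m : Matrix κ μ ℂ) (m' : Matrix μ κ ℂ)
    (c s : ℝ) : Matrix ι ι ℂ :=
  ((c : ℂ) • V + (s : ℂ) • (W * m')) * ((c : ℂ) • Vᴴ + (s : ℂ) • (m * Wᴴ))

omit [DecidableEq ι] in
theorem rot_sq {V : Matrix ι κ ℂ} {W : Matrix ι μ ℂ} {m : Matrix κ μ ℂ} {m' : Matrix μ κ ℂ}
    (hV : Vᴴ * V = 1) (hW : Wᴴ * W = 1) (hVW : Vᴴ * W = 0) (hm : m * m' = 1) {c s : ℝ}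
    (hcs : c ^ 2 + s ^ 2 = 1) : rot V W m m' c s * rot V W m m' c s = rot V W m m' c s := by
  have hWV : Wᴴ * V = 0 := by
    rw [← conjTranspose_conjTranspose V, ← conjTranspose_mul, hVW, conjTranspose_zero]
  have key : ((c : ℂ) • Vᴴ + (s : ℂ) • (m * Wᴴ)) * ((c : ℂ) • V + (s : ℂ) • (W * m')) = 1 := by
    simp only [Matrix.add_mul, Matrix.mul_add, Matrix.smul_mul, Matrix.mul_smul, Matrix.mul_assoc]
    rw [hV, hWV, ← Matrix.mul_assoc Vᴴ, hVW, ← Matrix.mul_assoc Wᴴ, hW, Matrix.one_mul, hm]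
    simp only [Matrix.zero_mul, Matrix.mul_zero, smul_zero, add_zero, zero_add]
    rw [smul_smul, smul_smul, ← add_smul, show (c : ℂ) * c + (s : ℂ) * s = 1 by exact_mod_cast (by linarith : c * c + s * s = 1),
      one_smul]
  rw [rot, Matrix.mul_assoc, ← Matrix.mul_assoc ((c : ℂ) • Vᴴ + _), key, Matrix.one_mul]

variable (S) in
/-- A family of matrices averaged by the weights of the simplex. -/
noncomputable def avg (F : Vert T → Rips (Vert T) R → Matrix ι ι ℂ) (p : Rips (Vert T) R) :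
    Matrix ι ι ℂ := ∑ w ∈ S, (crd p w : ℂ) • F w p

omit [Fintype ι] [DecidableEq ι] in
theorem avg_eq {F : Vert T → Rips (Vert T) R → Matrix ι ι ℂ} {p : Rips (Vert T) R}
    (hsum : ∑ w ∈ S, crd p w = 1) {u : Vert T}
    (h : ∀ w ∈ S, 0 < crd p w → F w p = F u p) : avg S F p = F u p := by
  rw [avg, Finset.sum_congr rfl (g := fun w => (crd p w : ℂ) • F u p), ← Finset.sum_smul]
  · rw [← Complex.ofReal_sum, hsum, Complex.ofReal_one, one_smul]
  · intro w hw
    rcases (crd_nonneg p w).eq_or_lt with h0 | h0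
    · rw [← h0]; simp
    · rw [h w hw h0]

omit [Fintype ι] [DecidableEq ι] in
theorem avg_congr {F G : Vert T → Rips (Vert T) R → Matrix ι ι ℂ} {p : Rips (Vert T) R}
    (h : ∀ w ∈ S, 0 < crd p w → F w p = G w p) : avg S F p = avg S G p := by
  refine Finset.sum_congr rfl fun w hw => ?_
  rcases (crd_nonneg p w).eq_or_lt with h0 | h0
  · rw [← h0]; simp
  · rw [h w hw h0]

variable {e : κ → ℤ} {f : μ → ℤ} {V : Vert T → Rips (Vert T) R → Matrix ι κ ℂ}
  {W : Vert T → Rips (Vert T) R → Matrix ι μ ℂ} {m : Vert T → Rips (Vert T) R → Matrix κ μ ℂ}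
  {m' : Vert T → Rips (Vert T) R → Matrix μ κ ℂ} {D : ℕ} {col : Vert T → Fin D}

omit [DecidableEq ι] in
theorem rot_trans (hV : Frame X r U S e V) (hW : Frame X r U S f W) (hm : Link X r U S e f m m')
    (c s : ℝ) {v u : Vert T} (hv : v ∈ S) (hu : u ∈ S) {p : Rips (Vert T) R}
    (hpv : p ∈ Dom U v) (hpu : p ∈ Dom U u) :
    rot (V v p) (W v p) (m v p) (m' v p) c s = rot (V u p) (W u p) (m u p) (m' u p) c s := by
  obtain ⟨h1, h2⟩ := hm.trans v hv u hu p hpv hpu
  have g0 : phase X r S v u (crd p) ≠ 0 := phase_ne_zero _ _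
  have c1 := change_mul_inv e g0
  have c2 := change_mul_inv f g0
  rw [rot, rot, hV.conj_trans hv hu hpv hpu, hW.conj_trans hv hu hpv hpu, h1, h2,
    hV.trans v hv u hu p hpv hpu, hW.trans v hv u hu p hpv hpu]
  set a := change e (phase X r S v u (crd p)) with ha
  set a' := change e (phase X r S v u (crd p))⁻¹ with ha'
  set b := change f (phase X r S v u (crd p))
  set b' := change f (phase X r S v u (crd p))⁻¹
  have e1 : (c : ℂ) • (V u p * a) + (s : ℂ) • (W u p * b * (b' * m' u p * a)) =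
      ((c : ℂ) • V u p + (s : ℂ) • (W u p * m' u p)) * a := by
    rw [Matrix.add_mul, Matrix.smul_mul, Matrix.smul_mul]
    simp only [Matrix.mul_assoc]
    rw [← Matrix.mul_assoc b b', c2, Matrix.one_mul]
  have e2 : (c : ℂ) • (a' * (V u p)ᴴ) + (s : ℂ) • (a' * m u p * b * (b' * (W u p)ᴴ)) =
      a' * ((c : ℂ) • (V u p)ᴴ + (s : ℂ) • (m u p * (W u p)ᴴ)) := by
    rw [Matrix.mul_add, Matrix.mul_smul, Matrix.mul_smul]
    simp only [Matrix.mul_assoc]
    rw [← Matrix.mul_assoc b b', c2, Matrix.one_mul]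
  rw [e1, e2, Matrix.mul_assoc, ← Matrix.mul_assoc a, c1, Matrix.one_mul]

theorem exists_pos_weight {p : Rips (Vert T) R} (hsum : ∑ w ∈ S, crd p w = 1) :
    ∃ u ∈ S, 0 < crd p u := by
  by_contra! hall
  linarith [Finset.sum_nonpos hall]

variable (h : Piece X r U S col)
include h

omit [DecidableEq ι] in
theorem avg_rot_sq (hV : Frame X r U S e V) (hW : Frame X r U S f W)
    (hm : Link X r U S e f m m') (h0 : ∀ w ∈ S, ∀ p ∈ Dom U w, (V w p)ᴴ * W w p = 0) {c s : ℝ}
    (hcs : c ^ 2 + s ^ 2 = 1) {p : Rips (Vert T) R} (hp : p ∈ U) :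
    avg S (fun w p => rot (V w p) (W w p) (m w p) (m' w p) c s) p *
      avg S (fun w p => rot (V w p) (W w p) (m w p) (m' w p) c s) p =
      avg S (fun w p => rot (V w p) (W w p) (m w p) (m' w p) c s) p := by
  obtain ⟨u, hu, hu0⟩ := exists_pos_weight (h.wts p hp).sum
  rw [avg_eq (h.wts p hp).sum (u := u) fun w hw hw0 =>
    rot_trans hV hW hm c s hw hu ⟨hp, hw0⟩ ⟨hp, hu0⟩]
  exact rot_sq (hV.orth u hu p ⟨hp, hu0⟩) (hW.orth u hu p ⟨hp, hu0⟩) (h0 u hu p ⟨hp, hu0⟩)
    (hm.inv u hu p ⟨hp, hu0⟩).1 hcs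

omit [DecidableEq ι] in
theorem continuous_avg_rot (hV : Frame X r U S e V) (hW : Frame X r U S f W)
    (hm : Link X r U S e f m m') {Y : Type} [TopologicalSpace Y] {π : Y → Rips (Vert T) R}
    (hπ : Continuous π) {g : Y → ℂ} (hg : Continuous g) (g0 : ∀ y, π y ∉ U → g y = 0)
    {c s : Y → ℝ} (hc : Continuous c) (hs : Continuous s) (hc1 : ∀ y, |c y| ≤ 1)
    (hs1 : ∀ y, |s y| ≤ 1) :
    Continuous fun y =>
      g y • avg S (fun w p => rot (V w p) (W w p) (m w p) (m' w p) (c y) (s y)) (π y) := by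
  refine continuous_matrix fun i j => ?_
  simp only [Matrix.smul_apply, avg, Matrix.sum_apply, smul_eq_mul, Finset.mul_sum, ← mul_assoc]
  refine continuous_finsetSum _ fun w hw => ?_
  have hcg : Good (π ⁻¹' Dom U w) fun y => (c y : ℂ) :=
    good_of_continuous (Complex.continuous_ofReal.comp hc) (C := 1) fun y => by simpa using hc1 y
  have hsg : Good (π ⁻¹' Dom U w) fun y => (s y : ℂ) :=
    good_of_continuous (Complex.continuous_ofReal.comp hs) (C := 1) fun y => by simpa using hs1 y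
  have hV' := (hV.good w hw).comp hπ
  have hW' := (hW.good w hw).comp hπ
  have hm1 := (hm.good w hw).1.comp hπ
  have hm2 := (hm.good w hw).2.comp hπ
  have hR : GoodM (π ⁻¹' Dom U w) fun y =>
      rot (V w (π y)) (W w (π y)) (m w (π y)) (m' w (π y)) (c y) (s y) :=
    ((GoodM.smul hcg hV').add (GoodM.smul hsg (hW'.mul hm2))).mul
      ((GoodM.smul hcg hV'.conj).add (GoodM.smul hsg (hm1.mul hW'.conj)))
  refine (hR i j).squeeze ?_ (hg.mul (Complex.continuous_ofReal.comp
    ((continuous_crd w).comp hπ))) ?_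
  · exact (h.isOpen.inter (isOpen_lt continuous_const (continuous_crd w))).preimage hπ
  · intro y hy
    by_cases hU : π y ∈ U
    · rw [le_antisymm (not_lt.1 fun h0 => hy ⟨hU, h0⟩) (crd_nonneg _ _), Complex.ofReal_zero,
        mul_zero]
    · rw [g0 y hU, zero_mul]

end Frames

end VP212.Bundle
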