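import Mathlib

/-!
P212 bundles: the algebra of sums of powers of one line, presented as matrices of homogeneous
elements of a commutative graded ring. The Koszul isomorphism makes a high power of the line
congruent to one.
-/

namespace VP212.Bundle

open Matrix Polynomial

variable {R : Type} [CommRing R]

/-- Multiplicative grading by subgroups. -/
structure Grading (G : ℤ → AddSubgroup R) : Prop where
  one_mem : (1 : R) ∈ G 0
  mul_mem : ∀ {i j a b}, a ∈ G i → b ∈ G j → a * b ∈ G (i + j)

variable (G : ℤ → AddSubgroup R)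

/-- A matrix of maps from the sum with degrees `f` to the sum with degrees `e`. -/
def Deg {κ μ : Type} (e : κ → ℤ) (f : μ → ℤ) (m : Matrix κ μ R) : Prop :=
  ∀ i j, m i j ∈ G (e i - f j)

/-- An isomorphism of two sums. -/
def Iso {κ μ : Type} [Fintype κ] [DecidableEq κ] [Fintype μ] [DecidableEq μ]
    (e : κ → ℤ) (f : μ → ℤ) : Prop :=
  ∃ (m : Matrix κ μ R) (m' : Matrix μ κ R),
    Deg G e f m ∧ Deg G f e m' ∧ m * m' = 1 ∧ m' * m = 1

variable {G}

theorem Grading.deg_mul (hG : Grading G) {κ μ ν : Type} [Fintype μ] {e : κ → ℤ} {f : μ → ℤ}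
    {g : ν → ℤ} {a : Matrix κ μ R} {b : Matrix μ ν R} (ha : Deg G e f a) (hb : Deg G f g b) :
    Deg G e g (a * b) := fun i k => by
  rw [Matrix.mul_apply]
  refine sum_mem fun j _ => ?_
  have := hG.mul_mem (ha i j) (hb j k)
  rwa [sub_add_sub_cancel] at this

section Iso

variable {κ μ ν κ' μ' : Type} [Fintype κ] [DecidableEq κ] [Fintype μ] [DecidableEq μ]
  [Fintype ν] [DecidableEq ν] [Fintype κ'] [DecidableEq κ'] [Fintype μ'] [DecidableEq μ']
  {e : κ → ℤ} {f : μ → ℤ} {g : ν → ℤ} {e' : κ' → ℤ} {f' : μ' → ℤ}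

theorem Iso.symm (h : Iso G e f) : Iso G f e :=
  let ⟨m, m', h1, h2, h3, h4⟩ := h
  ⟨m', m, h2, h1, h4, h3⟩

theorem Iso.trans (hG : Grading G) (h : Iso G e f) (h' : Iso G f g) : Iso G e g := by
  obtain ⟨a, a', h1, h2, h3, h4⟩ := h
  obtain ⟨b, b', k1, k2, k3, k4⟩ := h'
  refine ⟨a * b, b' * a', hG.deg_mul h1 k1, hG.deg_mul k2 h2, ?_, ?_⟩
  · rw [Matrix.mul_assoc, ← Matrix.mul_assoc b, k3, Matrix.one_mul, h3]
  · rw [Matrix.mul_assoc, ← Matrix.mul_assoc a', h4, Matrix.one_mul, k4]

theorem iso_of_equiv (hG : Grading G) (σ : κ ≃ μ) (h : ∀ i, f (σ i) = e i) : Iso G e f := by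
  refine ⟨(1 : Matrix μ μ R).submatrix σ id, (1 : Matrix μ μ R).submatrix id σ, ?_, ?_, ?_, ?_⟩
  · intro i j
    simp only [submatrix_apply, id, Matrix.one_apply]
    split_ifs with hij
    · subst hij
      rw [h, sub_self]
      exact hG.one_mem
    · exact zero_mem _
  · intro i j
    simp only [submatrix_apply, id, Matrix.one_apply]
    split_ifs with hij
    · subst hij
      rw [h, sub_self]
      exact hG.one_mem
    · exact zero_mem _
  · rw [← Matrix.submatrix_mul _ _ _ id _ Function.bijective_id, Matrix.one_mul,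
      Matrix.submatrix_one_equiv]
  · rw [← Matrix.submatrix_mul _ _ _ σ _ σ.bijective, Matrix.one_mul, Matrix.submatrix_id_id]

theorem Iso.sum (h : Iso G e f) (h' : Iso G e' f') :
    Iso G (Sum.elim e e') (Sum.elim f f') := by
  obtain ⟨a, a', h1, h2, h3, h4⟩ := h
  obtain ⟨b, b', k1, k2, k3, k4⟩ := h'
  refine ⟨fromBlocks a 0 0 b, fromBlocks a' 0 0 b', ?_, ?_, ?_, ?_⟩
  · rintro (i | i) (j | j) <;> simp [zero_mem, h1 _ _, k1 _ _]
  · rintro (i | i) (j | j) <;> simp [zero_mem, h2 _ _, k2 _ _]
  · simp [fromBlocks_multiply, h3, k3]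
  · simp [fromBlocks_multiply, h4, k4]

end Iso

section Koszul

variable {D : ℕ} (s t : Fin D → R)

/-- The sign of a colour in a set of colours. -/
def sgn (d : Fin D) (S : Finset (Fin D)) : R := (-1) ^ (S.filter (· < d)).card

/-- Toggle a colour. -/
def tog (d : Fin D) (S : Finset (Fin D)) : Finset (Fin D) := symmDiff S {d}

/-- One summand of the Koszul operator. -/
def coef (d : Fin D) (S : Finset (Fin D)) : R := sgn d S * if d ∈ S then t d else s d

/-- The Koszul operator on all sets of colours. -/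
def kos : Matrix (Finset (Fin D)) (Finset (Fin D)) R :=
  fun S' S => ∑ d, if S' = tog d S then coef s t d S else 0

theorem mem_tog {d e : Fin D} {S : Finset (Fin D)} :
    e ∈ tog d S ↔ (if e = d then e ∉ S else e ∈ S) := by
  simp only [tog, Finset.mem_symmDiff, Finset.mem_singleton]
  split_ifs with h <;> simp [h]

theorem tog_comm (d e : Fin D) (S : Finset (Fin D)) : tog d (tog e S) = tog e (tog d S) := by
  simp [tog, symmDiff_assoc, symmDiff_comm ({d} : Finset (Fin D))]

theorem tog_self (d : Fin D) (S : Finset (Fin D)) : tog d (tog d S) = S := by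
  simp [tog, symmDiff_assoc]

theorem filter_tog (d e : Fin D) (S : Finset (Fin D)) :
    (tog e S).filter (· < d) = if e < d then tog e (S.filter (· < d)) else S.filter (· < d) := by
  split_ifs with h <;> ext x <;> simp only [Finset.mem_filter, mem_tog] <;>
    by_cases hx : x = e <;> simp [hx, h]

theorem sgn_tog (d e : Fin D) (S : Finset (Fin D)) :
    (sgn d (tog e S) : R) = if e < d then -sgn d S else sgn d S := by
  simp only [sgn, filter_tog]
  split_ifs with h
  · by_cases he : e ∈ S.filter (· < d)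
    · have : tog e (S.filter (· < d)) = (S.filter (· < d)).erase e := by
        ext x; simp only [mem_tog, Finset.mem_erase]; by_cases hx : x = e <;> simp [hx, he]
      rw [this, ← Finset.card_erase_add_one he, pow_succ]
      simp
    · have : tog e (S.filter (· < d)) = insert e (S.filter (· < d)) := by
        ext x; simp only [mem_tog, Finset.mem_insert]; by_cases hx : x = e <;> simp [hx, he]
      rw [this, Finset.card_insert_of_notMem he, pow_succ]
      simp
  · rfl

theorem sgn_sq (d : Fin D) (S : Finset (Fin D)) : (sgn d S : R) * sgn d S = 1 := by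
  simp [sgn, ← mul_pow]

theorem coef_pair (d : Fin D) (S : Finset (Fin D)) :
    coef s t d (tog d S) * coef s t d S = t d * s d := by
  have h : (d ∈ tog d S) ↔ d ∉ S := by simp [mem_tog]
  simp only [coef, sgn_tog, lt_irrefl, if_false, h]
  split_ifs with h1 h2 <;> linear_combination (t d * s d) * sgn_sq (R := R) d S

theorem coef_swap {d e : Fin D} (hde : d ≠ e) (S : Finset (Fin D)) :
    coef s t d (tog e S) * coef s t e S + coef s t e (tog d S) * coef s t d S = 0 := by
  have h1 : d ∈ tog e S ↔ d ∈ S := by simp [mem_tog, hde]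
  have h2 : e ∈ tog d S ↔ e ∈ S := by simp [mem_tog, Ne.symm hde]
  simp only [coef, sgn_tog, h1, h2]
  rcases lt_or_gt_of_ne hde with h | h
  · rw [if_neg (not_lt.2 h.le), if_pos h]; ring
  · rw [if_pos h, if_neg (not_lt.2 h.le)]; ring

theorem kos_sq (h : ∑ d, t d * s d = 1) : kos s t * kos s t = 1 := by
  ext S'' S
  have e0 : (kos s t * kos s t) S'' S =
      ∑ e, ∑ d, if S'' = tog d (tog e S) then coef s t d (tog e S) * coef s t e S else 0 := by
    rw [Matrix.mul_apply]
    calc _ = ∑ S', ∑ e, if S' = tog e S then kos s t S'' S' * coef s t e S else 0 := by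
          refine Finset.sum_congr rfl fun S' _ => ?_
          simp only [kos, Finset.mul_sum, mul_ite, mul_zero]
      _ = ∑ e, kos s t S'' (tog e S) * coef s t e S := by
          rw [Finset.sum_comm]; simp
      _ = _ := by simp only [kos, Finset.sum_mul, ite_mul, zero_mul]
  rw [e0, Finset.sum_comm]
  rw [← Finset.sum_product',
    ← Finset.sum_filter_add_sum_filter_not _ (fun p : Fin D × Fin D => p.1 = p.2)]
  have hoff : ∑ p ∈ (Finset.univ ×ˢ Finset.univ).filter (fun p : Fin D × Fin D => ¬ p.1 = p.2),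
      (if S'' = tog p.1 (tog p.2 S) then coef s t p.1 (tog p.2 S) * coef s t p.2 S else 0)
      = 0 := by
    refine Finset.sum_involution (fun p _ => (p.2, p.1)) (fun p hp => ?_) (fun p hp _ h => ?_)
      (fun p hp => ?_) (fun p _ => rfl)
    · simp only [Finset.mem_filter] at hp
      rw [tog_comm p.2 p.1 S]
      split_ifs
      · exact coef_swap s t hp.2 S
      · simp
    · simp only [Finset.mem_filter] at hp
      exact hp.2 (congrArg Prod.snd h)
    · simp only [Finset.mem_filter, Finset.mem_product, Finset.mem_univ, true_and] at hp ⊢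
      exact fun h => hp h.symm
  rw [hoff, add_zero]
  have hdiag : (Finset.univ ×ˢ Finset.univ).filter (fun p : Fin D × Fin D => p.1 = p.2) =
      (Finset.univ : Finset (Fin D)).image fun d => (d, d) := by
    ext ⟨a, b⟩; simp [eq_comm]
  rw [hdiag, Finset.sum_image fun a _ b _ h => (Prod.ext_iff.1 h).1]
  simp only [tog_self, coef_pair, Matrix.one_apply]
  split_ifs with hS <;> simp [h]

/-- Parity of a set of colours. -/
abbrev Par (D : ℕ) (p : Bool) : Type := {S : Finset (Fin D) // decide (Even S.card) = p}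

theorem card_tog (d : Fin D) (S : Finset (Fin D)) :
    ((tog d S).card : ℤ) - S.card = if d ∈ S then -1 else 1 := by
  by_cases h : d ∈ S
  · have : tog d S = S.erase d := by
      ext x; simp only [mem_tog, Finset.mem_erase]; by_cases hx : x = d <;> simp [hx, h]
    rw [this, if_pos h, ← Finset.card_erase_add_one h]
    push_cast; ring
  · have : tog d S = insert d S := by
      ext x; simp only [mem_tog, Finset.mem_insert]; by_cases hx : x = d <;> simp [hx, h]
    rw [this, if_neg h, Finset.card_insert_of_notMem h]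
    push_cast; ring

theorem parity_tog (d : Fin D) (S : Finset (Fin D)) :
    decide (Even (tog d S).card) = !decide (Even S.card) := by
  have h := card_tog d S
  by_cases hd : d ∈ S
  · have : S.card = (tog d S).card + 1 := by rw [if_pos hd] at h; omega
    rw [this]; by_cases he : Even (tog d S).card <;> simp [Nat.even_add_one, he]
  · have : (tog d S).card = S.card + 1 := by rw [if_neg hd] at h; omega
    rw [this]; by_cases he : Even S.card <;> simp [Nat.even_add_one, he]

theorem koszul_iso (hG : Grading G) (hs : ∀ d, s d ∈ G 1) (ht : ∀ d, t d ∈ G (-1))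
    (h : ∑ d, t d * s d = 1) (k : ℤ) :
    Iso G (fun S : Par D true => k + (S.1.card : ℤ)) (fun S : Par D false => k + (S.1.card : ℤ)) := by
  have hdeg : ∀ S' S : Finset (Fin D), kos s t S' S ∈ G ((S'.card : ℤ) - S.card) := by
    intro S' S
    refine sum_mem fun d _ => ?_
    split_ifs with hS
    · subst hS
      rw [card_tog, coef]
      have hsgn : ∀ a i, a ∈ G i → sgn d S * a ∈ G i := by
        intro a i ha
        rcases neg_one_pow_eq_or R (S.filter (· < d)).card with h' | h' <;>
          simp [sgn, h', ha, neg_mem]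
      split_ifs with hd
      · exact hsgn _ _ (ht d)
      · exact hsgn _ _ (hs d)
    · exact zero_mem _
  refine ⟨(kos s t).submatrix (fun S => S.1) (fun S => S.1),
    (kos s t).submatrix (fun S => S.1) (fun S => S.1), fun i j => ?_, fun i j => ?_, ?_, ?_⟩
  · simpa using hdeg i.1 j.1
  · simpa using hdeg i.1 j.1
  all_goals
    ext i j
    rw [Matrix.mul_apply]
    simp only [submatrix_apply]
    have h2 := congrFun (congrFun (kos_sq s t h) i.1) j.1
    rw [Matrix.mul_apply, Matrix.one_apply] at h2
    rw [Matrix.one_apply]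
    refine (?_ : _ = ∑ S, kos s t i.1 S * kos s t S j.1).trans (h2.trans ?_)
    · refine Finset.sum_bij_ne_zero (fun S _ _ => S.1) (fun _ _ _ => Finset.mem_univ _)
        (fun a _ _ b _ _ e => Subtype.ext e) (fun S _ hS => ?_) (fun _ _ _ => rfl)
      have hk : kos s t S j.1 ≠ 0 := fun h0 => hS (by simp [h0])
      obtain ⟨d, -, hd⟩ := Finset.exists_ne_zero_of_sum_ne_zero hk
      have hd' : S = tog d j.1 := by by_contra hne; exact hd (if_neg hne)
      exact ⟨⟨S, by rw [hd', parity_tog, j.2]; rfl⟩, Finset.mem_univ _, hS, rfl⟩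
    · exact if_congr Subtype.ext_iff.symm rfl rfl

end Koszul

section Classes

noncomputable scoped instance decEqToType (m : Multiset ℕ) : DecidableEq m.ToType := Classical.decEq _

variable (G)

/-- The degrees of a multiset of exponents. -/
def exps (m : Multiset ℕ) : m.ToType → ℤ := fun a => ((a : ℕ) : ℤ)

/-- Isomorphism of multisets of exponents. -/
def IsoM (m m' : Multiset ℕ) : Prop := Iso G (exps m) (exps m')

variable {G}

/-- The multiset of a tuple. -/
def ms {κ : Type} [Fintype κ] (e : κ → ℕ) : Multiset ℕ := Finset.univ.val.map e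

theorem iso_of_ms_eq (hG : Grading G) {κ μ : Type} [Fintype κ] [DecidableEq κ] [Fintype μ]
    [DecidableEq μ] {e : κ → ℕ} {f : μ → ℕ} (h : ms e = ms f) :
    Iso G (fun i => ((e i : ℕ) : ℤ)) (fun j => ((f j : ℕ) : ℤ)) := by
  have hc : ∀ c, Fintype.card {a // e a = c} = Fintype.card {b // f b = c} := fun c => by
    have := congrArg (Multiset.count c) h
    simp only [ms, Multiset.count_map] at this
    simpa [Fintype.card_subtype, Finset.card_def, eq_comm] using this
  refine iso_of_equiv hG (Equiv.ofFiberEquiv (f := e) (g := f)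
    fun c => Fintype.equivOfCardEq (hc c)) fun i => ?_
  exact congrArg Nat.cast (Equiv.ofFiberEquiv_map _ i)

theorem ms_exps (m : Multiset ℕ) : ms (fun a : m.ToType => (a : ℕ)) = m := by
  simp [ms]

theorem isoM_iff (hG : Grading G) {κ μ : Type} [Fintype κ] [DecidableEq κ] [Fintype μ]
    [DecidableEq μ] {e : κ → ℕ} {f : μ → ℕ} :
    IsoM G (ms e) (ms f) ↔ Iso G (fun i => ((e i : ℕ) : ℤ)) (fun j => ((f j : ℕ) : ℤ)) := by
  have h1 : Iso G (fun i => ((e i : ℕ) : ℤ)) (exps (ms e)) := iso_of_ms_eq hG (ms_exps _).symm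
  have h2 : Iso G (fun i => ((f i : ℕ) : ℤ)) (exps (ms f)) := iso_of_ms_eq hG (ms_exps _).symm
  exact ⟨fun h => (h1.trans hG h).trans hG h2.symm, fun h => (h1.symm.trans hG h).trans hG h2⟩

theorem ms_sum {κ μ : Type} [Fintype κ] [Fintype μ] (e : κ → ℕ) (f : μ → ℕ) :
    ms (Sum.elim e f) = ms e + ms f := by
  simp [ms, Finset.univ, Fintype.elems, Finset.disjSum, Multiset.disjSum, Function.comp_def]

theorem IsoM.add (hG : Grading G) {a b a' b' : Multiset ℕ} (h : IsoM G a b)
    (h' : IsoM G a' b') : IsoM G (a + a') (b + b') := by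
  rw [← ms_exps a, ← ms_exps a', ← ms_exps b, ← ms_exps b', ← ms_sum, ← ms_sum, isoM_iff hG]
  convert Iso.sum h h' using 2 with i i <;> cases i <;> rfl

theorem IsoM.refl (hG : Grading G) (a : Multiset ℕ) : IsoM G a a := iso_of_ms_eq hG rfl

/-- The polynomial of a multiset of exponents. -/
noncomputable def poly (m : Multiset ℕ) : ℤ[X] := (m.map (X ^ ·)).sum

theorem poly_add (a b : Multiset ℕ) : poly (a + b) = poly a + poly b := by simp [poly]

theorem coeff_poly (m : Multiset ℕ) (k : ℕ) : (poly m).coeff k = m.count k := by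
  induction m using Multiset.induction with
  | empty => simp [poly]
  | cons a m ih =>
    simp only [poly] at ih
    simp [poly, ih, coeff_X_pow, Multiset.count_cons]
    split_ifs <;> simp_all [add_comm]

theorem poly_injective : Function.Injective poly := fun a b h =>
  Multiset.ext.2 fun k => by exact_mod_cast (coeff_poly a k).symm.trans (h ▸ coeff_poly b k)

theorem exists_poly_sub (p : ℤ[X]) : ∃ a b : Multiset ℕ, p = poly a - poly b := by
  induction p using Polynomial.induction_on' with
  | add p q hp hq =>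
    obtain ⟨a, b, rfl⟩ := hp
    obtain ⟨c, d, rfl⟩ := hq
    exact ⟨a + c, b + d, by rw [poly_add, poly_add]; ring⟩
  | monomial k c =>
    refine ⟨Multiset.replicate c.toNat k, Multiset.replicate (-c).toNat k, ?_⟩
    have : (c.toNat : ℤ) - (-c).toNat = c := Int.toNat_sub_toNat_neg c
    simp only [poly, Multiset.map_replicate, Multiset.sum_replicate, ← Polynomial.C_mul_X_pow_eq_monomial]
    rw [nsmul_eq_mul, nsmul_eq_mul, ← sub_mul]
    congr 1
    rw [eq_intCast, ← Int.cast_natCast c.toNat, ← Int.cast_natCast (-c).toNat, ← Int.cast_sub, this]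

/-- Differences of stably isomorphic sums. -/
noncomputable def relGroup (hG : Grading G) : AddSubgroup ℤ[X] where
  carrier := {p | ∃ a b, IsoM G a b ∧ p = poly a - poly b}
  zero_mem' := ⟨0, 0, IsoM.refl hG 0, by simp⟩
  add_mem' := by
    rintro _ _ ⟨a, b, h, rfl⟩ ⟨c, d, h', rfl⟩
    exact ⟨a + c, b + d, h.add hG h', by rw [poly_add, poly_add]; ring⟩
  neg_mem' := by
    rintro _ ⟨a, b, h, rfl⟩
    exact ⟨b, a, h.symm, by ring⟩

/-- A high power of the line is one, up to multiples of `Q`. -/
theorem power_congr (hG : Grading G) {D : ℕ} {s t : Fin D → R} (hs : ∀ d, s d ∈ G 1)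
    (ht : ∀ d, t d ∈ G (-1)) (h : ∑ d, t d * s d = 1) {M Q : ℕ} (hQ0 : 0 < Q)
    (hQ : ∀ j, 0 < j → j < D → Q ∣ M.choose j) :
    ∃ a b : Multiset ℕ, Iso G
      (Sum.elim (fun _ : Unit => (M : ℤ)) fun p : b.ToType × Fin Q => exps b p.1)
      (Sum.elim (fun _ : Unit => (0 : ℤ)) fun p : a.ToType × Fin Q => exps a p.1) := by
  have hrel : ∀ u : ℤ[X], u * (1 - X) ^ D ∈ relGroup hG := by
    intro u
    induction u using Polynomial.induction_on' with
    | add p q hp hq => rw [add_mul]; exact add_mem hp hq
    | monomial k c =>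
      rw [← Polynomial.C_mul_X_pow_eq_monomial, mul_assoc, eq_intCast, ← zsmul_eq_mul]
      refine AddSubgroup.zsmul_mem _ ?_ c
      show ∃ a b, IsoM G a b ∧ _ = poly a - poly b
      refine ⟨ms fun S : Par D true => k + S.1.card,
        ms fun S : Par D false => k + S.1.card, ?_, ?_⟩
      · rw [isoM_iff hG]
        simpa using koszul_iso s t hG hs ht h (k : ℤ)
      · have e : ∀ p : Bool, poly (ms fun S : Par D p => k + S.1.card) =
            ∑ S : Finset (Fin D), if decide (Even S.card) = p then X ^ (k + S.card) else 0 := by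
          intro p
          rw [poly, ms, Multiset.map_map]
          rw [← Finset.sum_filter]
          exact (Finset.sum_subtype _ (fun S => by simp)
            (fun S : Finset (Fin D) => (X : ℤ[X]) ^ (k + S.card))).symm
        have e2 : ((1 : ℤ[X]) - X) ^ D = ∑ S : Finset (Fin D), (-X) ^ S.card := by
          have := Finset.sum_pow_mul_eq_add_pow (-X) (1 : ℤ[X]) (Finset.univ : Finset (Fin D))
          simp only [one_pow, mul_one, Finset.powerset_univ, Finset.card_univ,
            Fintype.card_fin] at this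
          rw [this]; ring
        rw [e, e, ← Finset.sum_sub_distrib, e2, Finset.mul_sum]
        refine Finset.sum_congr rfl fun S _ => ?_
        rcases Nat.even_or_odd S.card with he | he
        · simp [he, he.neg_pow, pow_add]
        · simp [Nat.not_even_iff_odd.2 he, he.neg_pow, pow_add]
  have hI : (X : ℤ[X]) ^ M - 1 ∈ Ideal.span {(C (Q : ℤ)), ((1 : ℤ[X]) - X) ^ D} := by
    rw [show (X : ℤ[X]) ^ M = ((X - 1) + 1) ^ M by rw [sub_add_cancel], add_pow,
      Finset.sum_range_succ']
    simp only [one_pow, mul_one, pow_zero, Nat.choose_zero_right, Nat.cast_one,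
      add_sub_cancel_right]
    refine sum_mem fun j _ => ?_
    by_cases hj : j + 1 < D
    · obtain ⟨q, hq⟩ := hQ (j + 1) j.succ_pos hj
      rw [hq, Nat.cast_mul, show ((Q : ℕ) : ℤ[X]) = C (Q : ℤ) by simp]
      refine Ideal.mul_mem_left _ _ (Ideal.mul_mem_right _ _ (Ideal.subset_span ?_))
      simp
    · have : ((1 : ℤ[X]) - X) ^ D ∣ (X - 1) ^ (j + 1) :=
        (pow_dvd_pow_of_dvd ⟨-1, by ring⟩ D).trans (pow_dvd_pow _ (not_lt.1 hj))
      exact Ideal.mul_mem_right _ _ (Ideal.mem_of_dvd _ this (Ideal.subset_span (by simp)))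
  obtain ⟨r, u, hru⟩ := Ideal.mem_span_pair.1 hI
  obtain ⟨rp, rm, rfl⟩ := exists_poly_sub r
  obtain ⟨f, g, hfg, hp⟩ := hrel u
  have hnsmul : ∀ (j : ℕ) m, poly (j • m) = (j : ℤ[X]) * poly m := fun j m => by
    simp [poly, Multiset.map_nsmul, Multiset.sum_nsmul]
  have hC : C (Q : ℤ) = (Q : ℤ[X]) := by simp
  rw [hC] at hru
  have heq : f + {0} + Q • rp = g + {M} + Q • rm := poly_injective (by
    rw [poly_add, poly_add, poly_add, poly_add, hnsmul, hnsmul]
    have e1 : ∀ j : ℕ, poly {j} = (X : ℤ[X]) ^ j := fun j => by simp [poly]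
    rw [e1, e1, pow_zero]
    linear_combination hru - hp)
  refine ⟨rp + g, rm + g, ?_⟩
  suffices h0 : IsoM G
      (ms (Sum.elim (fun _ : Unit => M) fun p : (rm + g).ToType × Fin Q => (p.1 : ℕ)))
      (ms (Sum.elim (fun _ : Unit => 0) fun p : (rp + g).ToType × Fin Q => (p.1 : ℕ))) by
    rw [isoM_iff hG] at h0
    convert h0 using 2 with i i <;> cases i <;> rfl
  have hms : ∀ m : Multiset ℕ, ms (fun p : m.ToType × Fin Q => (p.1 : ℕ)) = Q • m := by
    intro m
    refine Multiset.ext.2 fun c => ?_
    conv_rhs => rw [Multiset.count_nsmul, ← ms_exps m]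
    simp only [ms, Multiset.count_map]
    rw [← Finset.filter_val, ← Finset.filter_val, ← Finset.card_def, ← Finset.card_def,
      ← Finset.univ_product_univ, show (Finset.univ ×ˢ Finset.univ).filter
        (fun p : m.ToType × Fin Q => c = (p.1 : ℕ)) =
        (Finset.univ.filter fun a : m.ToType => c = (a : ℕ)) ×ˢ Finset.univ by
        ext ⟨x, y⟩; simp]
    simp [mul_comm]
  rw [ms_sum, ms_sum, hms, hms, show ms (fun _ : Unit => M) = {M} by simp [ms],
    show ms (fun _ : Unit => 0) = {0} by simp [ms]]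
  obtain ⟨q, rfl⟩ : ∃ q, Q = q + 1 := ⟨Q - 1, by omega⟩
  have e1 : {M} + (q + 1) • (rm + g) = (f + {0} + (q + 1) • rp) + q • g := by
    rw [heq, nsmul_add, succ_nsmul g q]; abel
  have e2 : {0} + (q + 1) • (rp + g) = (g + {0} + (q + 1) • rp) + q • g := by
    rw [nsmul_add, succ_nsmul g q]; abel
  rw [e1, e2]
  exact ((hfg.add hG (IsoM.refl hG _)).add hG (IsoM.refl hG _)).add hG (IsoM.refl hG _)
end Classes

end VP212.Bundle
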