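import Vale.Agent.P212.Base.Torus

/-!
P212 bundles: lifting nearby vertices above the top level to the plane times the lifted fibre,
and the resulting cocycle of deck transformations.
-/

namespace VP212.Bundle

variable {T : Tower} {n M : ℕ}

/-- The top fibre point below a point. -/
noncomputable def toTop (T : Tower) (n : ℕ) : ∀ l, T.Fib n l → T.Fib n (T.top n)
  | 0, _ => Classical.arbitrary _
  | l + 1, x => if h : l + 1 = T.top n then h ▸ x else toTop T n l (T.par n l x)

theorem toTop_self (x : T.Fib n (T.top n)) : toTop T n (T.top n) x = x := by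
  have key : ∀ (l : ℕ) (h : T.top n = l), toTop T n l (h ▸ x) = x := by
    intro l h
    cases l with
    | zero =>
      have : Subsingleton (T.Fib n (T.top n)) := h ▸ T.root n
      exact Subsingleton.elim _ _
    | succ l =>
      rw [toTop, dif_pos h.symm]
      exact (fun {a b : ℕ} (h : a = b) (h' : b = a) (y : T.Fib n a) => by
        subst h; rfl : ∀ {a b : ℕ} (h : a = b) (h' : b = a) (y : T.Fib n a), h' ▸ h ▸ y = y)
        h h.symm x
  exact key _ rfl

theorem toTop_succ {l : ℕ} (h : T.top n ≤ l) (x : T.Fib n (l + 1)) :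
    toTop T n (l + 1) x = toTop T n l (T.par n l x) := by
  rw [toTop, dif_neg (by omega)]

theorem toTop_act {l : ℕ} (h : T.top n ≤ l) (g : Gen) (x : T.Fib n l) :
    toTop T n l (T.act n l g x) = T.act n (T.top n) g (toTop T n l x) := by
  induction l, h using Nat.le_induction with
  | base => simp [toTop_self]
  | succ l hl ih => rw [toTop_succ hl, toTop_succ hl, (T.plain n l hl).2, ih]

theorem toTop_A {l : ℕ} (h : T.top n ≤ l) (x : T.Fib n l) :
    toTop T n l (T.A n l x) = T.A n (T.top n) (toTop T n l x) := by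
  induction l, h using Nat.le_induction with
  | base => simp [toTop_self]
  | succ l hl ih => rw [toTop_succ hl, toTop_succ hl, T.par_A, ih]

theorem toTop_B {l : ℕ} (h : T.top n ≤ l) (x : T.Fib n l) :
    toTop T n l (T.B n l x) = T.B n (T.top n) (toTop T n l x) := by
  induction l, h using Nat.le_induction with
  | base => simp [toTop_self]
  | succ l hl ih => rw [toTop_succ hl, toTop_succ hl, T.par_B, ih]

/-- The top point below a vertex. -/
noncomputable def wTop (n : ℕ) (v : Vert T) : T.Fib n (T.top n) :=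
  if h : v.n = n then toTop T n v.l (h ▸ v.w) else Classical.arbitrary _

theorem wTop_mk (z : Grid n) (l : ℕ) (w : T.Fib n l) :
    wTop n (⟨n, z, l, w⟩ : Vert T) = toTop T n l w := by simp [wTop]

/-- The integer coordinates of a vertex. -/
def zi (v : Vert T) : ℤ × ℤ := ((v.z.1.val : ℤ), (v.z.2.val : ℤ))

/-- The small displacement from `v` to `u`. -/
def dlt (n : ℕ) (v u : Vert T) : ℤ × ℤ :=
  ((((zi u).1 - (zi v).1 : ℤ) : ZMod (n + 3)).valMinAbs,
    (((zi u).2 - (zi v).2 : ℤ) : ZMod (n + 3)).valMinAbs)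

theorem valMinAbs_eq {L : ℕ} [NeZero L] (a : ℤ) (h : 2 * |a| < L) :
    ((a : ℤ) : ZMod L).valMinAbs = a := by
  rw [ZMod.valMinAbs_spec]
  refine ⟨rfl, ?_, ?_⟩ <;> rcases abs_lt.1 (show |a * 2| < L by
    rw [abs_mul]; simpa [mul_comm] using h) with ⟨h1, h2⟩ <;> omega

/-- Points of the plane times the lifted top. -/
abbrev LPt (X : TopLift T n M) : Type := ℤ × ℤ × X.Lift

variable (X : TopLift T n M)

/-- The top point below a point of the plane. -/
noncomputable def below (p : LPt X) : T.Fib n (T.top n) :=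
  (T.A n (T.top n) ^ (p.1 / (n + 3 : ℤ))) ((T.B n (T.top n) ^ (p.2.1 / (n + 3 : ℤ))) (X.proj p.2.2))

/-- `p` lies above the vertex `v`. -/
def Over (p : LPt X) (v : Vert T) : Prop :=
  (p.1 : ZMod (n + 3)) = ((zi v).1 : ZMod (n + 3)) ∧
    (p.2.1 : ZMod (n + 3)) = ((zi v).2 : ZMod (n + 3)) ∧ below X p = wTop n v

/-- Joined by at most `k` moves. -/
def Adj (k : ℕ) (p q : LPt X) : Prop :=
  |q.1 - p.1| ≤ k ∧ |q.2.1 - p.2.1| ≤ k ∧
    ∃ w : List Gen, w.length ≤ k ∧ wordPerm X.act w p.2.2 = q.2.2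

theorem act_neg_apply (l : ℕ) (g : Gen) (x : T.Fib n l) :
    T.act n l (g.1, -g.2) (T.act n l g x) = x := by
  have h0 : T.act n l (g.1, (0 : Coef)) = 1 := by
    have := T.act_add n l g.1 0 0
    rw [add_zero] at this
    exact mul_eq_left.1 this.symm
  have := T.act_add n l g.1 (-g.2) g.2
  rw [neg_add_cancel, h0] at this
  calc T.act n l (g.1, -g.2) (T.act n l g x)
      = (T.act n l (g.1, -g.2) * T.act n l g) x := rfl
    _ = x := by rw [← this]; rfl

/-- The lifts of a pair of integers of period `n + 3`. -/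
theorem Over.exists (z : ℤ × ℤ) (y : T.Fib n (T.top n)) :
    ∃ ŵ : X.Lift, below X (z.1, z.2, ŵ) = y := by
  obtain ⟨ŵ, hŵ⟩ := X.proj_surj ((T.B n (T.top n) ^ (z.2 / (n + 3 : ℤ)))⁻¹
    ((T.A n (T.top n) ^ (z.1 / (n + 3 : ℤ)))⁻¹ y))
  exact ⟨ŵ, by simp [below, hŵ]⟩

theorem below_act (i j : ℤ) (w : List Gen) (ŵ : X.Lift) :
    below X (i, j, wordPerm X.act w ŵ) = wordPerm (T.act n (T.top n)) w (below X (i, j, ŵ)) := by
  have hp : ∀ w, X.proj (wordPerm X.act w ŵ) =
      wordPerm (T.act n (T.top n)) w (X.proj ŵ) := by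
    intro w
    induction w with
    | nil => simp [wordPerm]
    | cons g w ih =>
      simp only [wordPerm, List.map_cons, List.prod_cons, Equiv.Perm.mul_apply] at ih ⊢
      rw [X.proj_act, ih]
  have hc : Commute (T.A n (T.top n) ^ (i / (n + 3 : ℤ)) * T.B n (T.top n) ^ (j / (n + 3 : ℤ)))
      (wordPerm (T.act n (T.top n)) w) := by
    refine Commute.list_prod_right _ _ fun f hf => ?_
    obtain ⟨g, -, rfl⟩ := List.mem_map.1 hf
    exact ((T.A_act n _ g).zpow_left _).mul_left ((T.B_act n _ g).zpow_left _)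
  have := Equiv.congr_fun hc.eq (X.proj ŵ)
  simp only [below, Equiv.Perm.mul_apply] at this ⊢
  rw [hp, this]

theorem ediv_succ {L : ℕ} [NeZero L] (i : ℤ) :
    (i + 1) / (L : ℤ) = i / (L : ℤ) + if ((i : ℤ) : ZMod L) = -1 then 1 else 0 := by
  have hL : (0 : ℤ) < L := by exact_mod_cast Nat.pos_of_ne_zero (NeZero.ne L)
  have h : ((i : ℤ) : ZMod L) = -1 ↔ (i + 1) % (L : ℤ) = 0 := by
    rw [← Int.dvd_iff_emod_eq_zero, ← ZMod.intCast_zmod_eq_zero_iff_dvd, Int.cast_add,
      Int.cast_one, eq_neg_iff_add_eq_zero]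
  simp only [h]
  have h1 := Int.emod_add_mul_ediv i L
  have h2 := Int.emod_nonneg i hL.ne'
  have h3 := Int.emod_lt_of_pos i hL
  rcases Decidable.em (i % (L : ℤ) + 1 = L) with he | he
  · have : i + 1 = (L : ℤ) * (i / L + 1) := by rw [mul_add]; omega
    rw [if_pos (by rw [this]; exact Int.mul_emod_right _ _), this,
      Int.mul_ediv_cancel_left _ hL.ne']
  · have e : i + 1 = (i % L + 1) + (L : ℤ) * (i / L) := by omega
    have h4 : (i + 1) % (L : ℤ) = i % L + 1 := by
      rw [e, Int.add_mul_emod_self_left]; exact Int.emod_eq_of_lt (by omega) (by omega)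
    have h5 : (i + 1) / (L : ℤ) = i / L := by
      rw [e, Int.add_mul_ediv_left _ _ hL.ne', Int.ediv_eq_zero_of_lt (by omega) (by omega),
        zero_add]
    rw [if_neg (by omega), h5, add_zero]

theorem wTop_stepA (z : Grid n) {l : ℕ} (w : T.Fib n l) (h : T.top n ≤ l) :
    wTop n (stepA (⟨n, z, l, w⟩ : Vert T)) =
      (T.A n (T.top n) ^ (if z.1 = -1 then (1 : ℤ) else 0)) (toTop T n l w) := by
  show wTop n (⟨n, _, l, if z.1 = seam n then T.A n l w else w⟩ : Vert T) = _
  rw [wTop_mk]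
  rcases eq_or_ne z.1 (-1) with e | e
  · rw [if_pos e, if_pos (show z.1 = seam n from e), toTop_A h, zpow_one]
  · rw [if_neg e, if_neg (show ¬ z.1 = seam n from e)]; rfl

theorem wTop_stepB (z : Grid n) {l : ℕ} (w : T.Fib n l) (h : T.top n ≤ l) :
    wTop n (stepB (⟨n, z, l, w⟩ : Vert T)) =
      (T.B n (T.top n) ^ (if z.2 = -1 then (1 : ℤ) else 0)) (toTop T n l w) := by
  show wTop n (⟨n, _, l, if z.2 = seam n then T.B n l w else w⟩ : Vert T) = _
  rw [wTop_mk]
  rcases eq_or_ne z.2 (-1) with e | e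
  · rw [if_pos e, if_pos (show z.2 = seam n from e), toTop_B h, zpow_one]
  · rw [if_neg e, if_neg (show ¬ z.2 = seam n from e)]; rfl

/-- One edge above the top lifts to one move. -/
theorem lift_edge {v u : Vert T} (hv : v.n = n) (hl : T.top n + 1 ≤ v.l)
    (h : (vertGraph T).Adj v u) {p : LPt X} (hp : Over X p v) :
    u.n = n ∧ T.top n ≤ u.l ∧ v.l ≤ u.l + 1 ∧ ∃ q, Over X q u ∧ Adj X 1 p q := by
  obtain ⟨i, j, ŵ⟩ := p
  obtain ⟨h1, h2, h3⟩ := hp
  obtain ⟨-, hr | hr⟩ := (SimpleGraph.fromRel_adj _ _ _).1 h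
  · obtain ⟨n', z, l, w⟩ := v
    dsimp only at hv hl
    subst hv
    rw [wTop_mk] at h3
    rcases hr with ⟨g, rfl⟩ | rfl | rfl | ⟨x, hx, rfl⟩
    · refine ⟨rfl, by simp [stepG]; omega, by simp [stepG],
        (i, j, wordPerm X.act [g] ŵ), ⟨h1, h2, ?_⟩, by simp [Adj]; exact ⟨[g], le_rfl, rfl⟩⟩
      rw [below_act, h3]
      simp [stepG, wTop_mk, toTop_act (by omega : T.top n' ≤ l), wordPerm]
    · refine ⟨rfl, by simp [stepA]; omega, by simp [stepA],
        (i + 1, j, ŵ), ⟨?_, h2, ?_⟩, by simp [Adj]; exact ⟨[], by simp, rfl⟩⟩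
      · simp only [zi, stepA, Int.cast_natCast, ZMod.natCast_zmod_val] at h1 ⊢
        push_cast
        rw [h1]
      · simp only [below] at h3 ⊢
        simp only [zi, Int.cast_natCast, ZMod.natCast_zmod_val] at h1
        have := ediv_succ (L := n' + 3) i
        push_cast at this
        rw [this, h1, wTop_stepA z w (by omega), zpow_add, zpow_mul_comm, Equiv.Perm.mul_apply, h3]
    · refine ⟨rfl, by simp [stepB]; omega, by simp [stepB],
        (i, j + 1, ŵ), ⟨h1, ?_, ?_⟩, by simp [Adj]; exact ⟨[], by simp, rfl⟩⟩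
      · simp only [zi, stepB, Int.cast_natCast, ZMod.natCast_zmod_val] at h2 ⊢
        push_cast
        rw [h2]
      · simp only [below] at h3 ⊢
        simp only [zi, Int.cast_natCast, ZMod.natCast_zmod_val] at h2
        have := ediv_succ (L := n' + 3) j
        push_cast at this
        rw [this, h2, wTop_stepB z w (by omega), ← h3, zpow_add, zpow_mul_comm, Equiv.Perm.mul_apply]
        exact Equiv.congr_fun ((T.AB n' (T.top n')).zpow_zpow _ _).eq _
    · dsimp only at x hx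
      refine ⟨rfl, by dsimp only; omega, by dsimp only; omega, (i, j, ŵ), ⟨h1, h2, ?_⟩,
        by simp [Adj]; exact ⟨[], by simp, rfl⟩⟩
      rw [h3, wTop_mk, toTop_succ (by omega : T.top n' ≤ l), hx]
  · obtain ⟨n', z, l, w⟩ := u
    rcases hr with ⟨g, rfl⟩ | rfl | rfl | ⟨x, hx, rfl⟩
    · simp only [stepG] at hv hl
      subst hv
      refine ⟨rfl, by simp; omega, by simp [stepG],
        (i, j, wordPerm X.act [(g.1, -g.2)] ŵ), ⟨h1, h2, ?_⟩,
        by simp [Adj]; exact ⟨[_], le_rfl, rfl⟩⟩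
      rw [below_act, h3]
      simp [stepG, wTop_mk, toTop_act (by omega : T.top n' ≤ l), wordPerm, act_neg_apply]
    · simp only [stepA] at hv hl
      subst hv
      refine ⟨rfl, by simp; omega, by simp [stepA],
        (i - 1, j, ŵ), ⟨?_, h2, ?_⟩, by simp [Adj]; exact ⟨[], by simp, rfl⟩⟩
      · simp only [zi, stepA, Int.cast_natCast, ZMod.natCast_zmod_val] at h1 ⊢
        push_cast
        rw [h1]; simp
      · simp only [below] at h3 ⊢
        simp only [zi, stepA, Int.cast_natCast, ZMod.natCast_zmod_val] at h1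
        have := ediv_succ (L := n' + 3) (i - 1)
        push_cast at this
        simp only [sub_add_cancel] at this
        rw [wTop_stepA z w (by omega), this, h1, add_sub_cancel_right, zpow_add, zpow_mul_comm,
          Equiv.Perm.mul_apply] at h3
        rw [wTop_mk]
        exact Equiv.injective _ h3
    · simp only [stepB] at hv hl
      subst hv
      refine ⟨rfl, by simp; omega, by simp [stepB],
        (i, j - 1, ŵ), ⟨h1, ?_, ?_⟩, by simp [Adj]; exact ⟨[], by simp, rfl⟩⟩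
      · simp only [zi, stepB, Int.cast_natCast, ZMod.natCast_zmod_val] at h2 ⊢
        push_cast
        rw [h2]; simp
      · simp only [below] at h3 ⊢
        simp only [zi, stepB, Int.cast_natCast, ZMod.natCast_zmod_val] at h2
        have := ediv_succ (L := n' + 3) (j - 1)
        push_cast at this
        simp only [sub_add_cancel] at this
        rw [wTop_stepB z w (by omega), this, h2, add_sub_cancel_right, zpow_add, zpow_mul_comm,
          Equiv.Perm.mul_apply] at h3
        have hAB : ∀ (a b : ℤ) (x : T.Fib n' (T.top n')), (T.A n' (T.top n') ^ a) ((T.B n' (T.top n') ^ b) x) =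
            (T.B n' (T.top n') ^ b) ((T.A n' (T.top n') ^ a) x) :=
          fun a b x => Equiv.congr_fun ((T.AB n' (T.top n')).zpow_zpow a b).eq x
        rw [hAB] at h3
        rw [wTop_mk]
        exact Equiv.injective _ h3
    · simp only at hv hl
      subst hv
      dsimp only at x hx hl
      refine ⟨rfl, by simp; omega, by simp, (i, j, ŵ), ⟨h1, h2, ?_⟩,
        by simp [Adj]; exact ⟨[], by simp, rfl⟩⟩
      rw [h3, wTop_mk, wTop_mk, toTop_succ (by omega : T.top n' ≤ l), hx]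

theorem Adj.refl (k : ℕ) (p : LPt X) : Adj X k p p :=
  ⟨by simp, by simp, [], by simp, rfl⟩

theorem Adj.trans {j k : ℕ} {p q r : LPt X} (h : Adj X j p q) (h' : Adj X k q r) :
    Adj X (j + k) p r := by
  obtain ⟨h1, h2, w, hw, hw'⟩ := h
  obtain ⟨k1, k2, v, hv, hv'⟩ := h'
  refine ⟨?_, ?_, v ++ w, by simp; omega, ?_⟩
  · rw [abs_le] at *; push_cast; omega
  · rw [abs_le] at *; push_cast; omega
  · simp only [wordPerm, List.map_append, List.prod_append, Equiv.Perm.mul_apply] at hw' hv' ⊢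
    rw [hw', hv']

/-- A short walk above the top lifts. -/
theorem lift_walk {v u : Vert T} (p : (vertGraph T).Walk v u) (hv : v.n = n)
    (hl : T.top n + p.length ≤ v.l) {a : LPt X} (ha : Over X a v) :
    u.n = n ∧ ∃ b, Over X b u ∧ Adj X p.length a b := by
  induction p generalizing a with
  | nil => exact ⟨hv, a, ha, Adj.refl X _ a⟩
  | cons h p ih =>
    simp only [SimpleGraph.Walk.length_cons] at hl ⊢
    obtain ⟨hn, -, hl', b, hb, hab⟩ := lift_edge X hv (by omega) h ha
    obtain ⟨hu, c, hc, hbc⟩ := ih hn (by omega) hb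
    exact ⟨hu, c, hc, by rw [Nat.add_comm]; exact hab.trans X hbc⟩

theorem dist_le_walk {v u : Vert T} {r : ℝ} (hv : v.n = n) (hr : r < n + 1)
    (h : dist v u ≤ r) : u.n = n ∧ ∃ p : (vertGraph T).Walk v u, (p.length : ℝ) ≤ r := by
  change joinDist (vertGraph T) Vert.n (vertRoot T) v u ≤ r at h
  by_cases hc : v.n = u.n
  · rw [joinDist, if_pos hc] at h
    have hre : (vertGraph T).Reachable v u :=
      (vert_reach_root T v).trans (hc ▸ (vert_reach_root T u).symm)
    obtain ⟨p, hp⟩ := hre.exists_walk_length_eq_dist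
    exact ⟨hc ▸ hv, p, by rw [hp]; exact h⟩
  · rw [joinDist, if_neg hc, hv] at h
    have : (0 : ℝ) ≤ (vertGraph T).dist v (vertRoot T v.n) := Nat.cast_nonneg _
    have : (0 : ℝ) ≤ (vertGraph T).dist u (vertRoot T u.n) := Nat.cast_nonneg _
    have : (0 : ℝ) ≤ (u.n : ℝ) := Nat.cast_nonneg _
    rw [hv] at *
    linarith

/-- A deck transformation. -/
noncomputable def deck (a b : ℤ) (c : ZMod M) (p : LPt X) : LPt X :=
  (p.1 + (n + 3 : ℤ) * a, p.2.1 + (n + 3 : ℤ) * b,
    X.z c ((X.A ^ (-a)) ((X.B ^ (-b)) p.2.2)))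

theorem z_zero : X.z 0 = 1 := by
  have := X.z_add 0 0
  rw [add_zero] at this
  exact mul_eq_left.1 this.symm

/-- The central action as a homomorphism. -/
def zHom : Multiplicative (ZMod M) →* Equiv.Perm X.Lift where
  toFun c := X.z c.toAdd
  map_one' := z_zero X
  map_mul' _ _ := X.z_add _ _

theorem z_zpow (c : ZMod M) (q : ℤ) : X.z c ^ q = X.z (q • c) :=
  ((zHom X).map_zpow (Multiplicative.ofAdd c) q).symm

theorem comm_pow (p q : ℤ) : X.B ^ p * X.A ^ q = X.z (-(p * q : ℤ)) * (X.A ^ q * X.B ^ p) := by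
  have h1 : X.A * X.B * X.A⁻¹ = X.z 1 * X.B := by
    rw [X.comm, mul_assoc, mul_assoc, mul_inv_cancel, mul_one]
  have h2 : X.A * X.B ^ p * X.A⁻¹ = X.z (p : ZMod M) * X.B ^ p := by
    rw [← conj_zpow, h1, (X.z_B 1).mul_zpow, z_zpow, zsmul_one]
  have h3 : X.B ^ p * X.A * (X.B ^ p)⁻¹ = X.z (-(p : ZMod M)) * X.A := by
    have hz : X.z (-(p : ZMod M)) * X.z p = 1 := by rw [← X.z_add, neg_add_cancel, z_zero]
    have h2' : X.A * X.B ^ p = X.z p * X.B ^ p * X.A := by rw [← h2, inv_mul_cancel_right]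
    rw [mul_inv_eq_iff_eq_mul, mul_assoc _ X.A, h2', ← mul_assoc, ← mul_assoc, hz, one_mul]
  have h4 : (X.B ^ p * X.A * (X.B ^ p)⁻¹) ^ q = X.B ^ p * X.A ^ q * (X.B ^ p)⁻¹ := conj_zpow
  rw [h3, (X.z_A _).mul_zpow, z_zpow, zsmul_eq_mul] at h4
  rw [mul_inv_eq_iff_eq_mul.1 h4.symm, mul_assoc]
  congr 2
  push_cast
  ring

theorem deck_deck (a b : ℤ) (c : ZMod M) (a' b' : ℤ) (c' : ZMod M) (p : LPt X) :
    deck X a' b' c' (deck X a b c p) =
      deck X (a' + a) (b' + b) (c' + c - (a : ZMod M) * b') p := by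
  obtain ⟨i, j, ŵ⟩ := p
  simp only [deck, Prod.mk.injEq]
  refine ⟨by ring, by ring, ?_⟩
  have hz : ∀ d (e : ℤ) (f : Equiv.Perm X.Lift), Commute (X.z d) f → f ^ e * X.z d = X.z d * f ^ e :=
    fun _ e _ h => ((h.zpow_right e).eq).symm
  have hperm : X.z c' * X.A ^ (-a') * X.B ^ (-b') * (X.z c * X.A ^ (-a) * X.B ^ (-b)) =
      X.z (c' + c - (a : ZMod M) * b') * X.A ^ (-(a' + a)) * X.B ^ (-(b' + b)) := by
    rw [show X.z c' * X.A ^ (-a') * X.B ^ (-b') * (X.z c * X.A ^ (-a) * X.B ^ (-b)) =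
      X.z c' * X.A ^ (-a') * (X.B ^ (-b') * X.z c) * (X.A ^ (-a) * X.B ^ (-b)) by group,
      hz c _ _ (X.z_B c),
      show X.z c' * X.A ^ (-a') * (X.z c * X.B ^ (-b')) * (X.A ^ (-a) * X.B ^ (-b)) =
      X.z c' * (X.A ^ (-a') * X.z c) * (X.B ^ (-b') * X.A ^ (-a)) * X.B ^ (-b) by group,
      hz c _ _ (X.z_A c), comm_pow X,
      show ∀ e, X.z c' * (X.z c * X.A ^ (-a')) * (X.z e * (X.A ^ (-a) * X.B ^ (-b'))) * X.B ^ (-b) =
        X.z c' * X.z c * (X.A ^ (-a') * X.z e) * (X.A ^ (-a) * X.B ^ (-b')) * X.B ^ (-b) from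
        fun e => by group,
      hz _ _ _ (X.z_A _), neg_add a', neg_add b']
    rw [sub_eq_add_neg, X.z_add, X.z_add, zpow_add, zpow_add]
    have e : (-((-b' * -a : ℤ)) : ZMod M) = -((a : ZMod M) * b') := by push_cast; ring
    rw [e]
    group
  exact Equiv.congr_fun hperm ŵ

theorem deck_over {a b : ℤ} {c : ZMod M} {p : LPt X} {v : Vert T} (h : Over X p v) :
    Over X (deck X a b c p) v := by
  obtain ⟨h1, h2, h3⟩ := h
  have h0 : (((n + 3 : ℤ)) : ZMod (n + 3)) = 0 := by exact_mod_cast ZMod.natCast_self (n + 3)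
  refine ⟨by simp only [deck]; push_cast at h0 ⊢; rw [h0, zero_mul, add_zero]; exact h1,
    by simp only [deck]; push_cast at h0 ⊢; rw [h0, zero_mul, add_zero]; exact h2, ?_⟩
  rw [← h3]
  simp only [below, deck]
  have hL : (n + 3 : ℤ) ≠ 0 := by omega
  rw [Int.add_mul_ediv_left _ _ hL, Int.add_mul_ediv_left _ _ hL]
  have hz : ∀ (d : ZMod M) (x : X.Lift), X.proj (X.z d x) = X.proj x := fun d x =>
    ((X.z_fibre _ _).2 ⟨d, rfl⟩).symm
  have hA : ∀ (e : ℤ) (x : X.Lift), X.proj ((X.A ^ e) x) = (T.A n (T.top n) ^ e) (X.proj x) :=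
    fun e x => proj_zpow X.proj_A e x
  have hB : ∀ (e : ℤ) (x : X.Lift), X.proj ((X.B ^ e) x) = (T.B n (T.top n) ^ e) (X.proj x) :=
    fun e x => proj_zpow X.proj_B e x
  rw [hz, hA, hB]
  simp only [← Equiv.Perm.mul_apply]
  congr 1
  rw [zpow_add, zpow_add, mul_assoc, mul_assoc, ← mul_assoc (T.B n _ ^ b),
    ((T.AB n _).zpow_zpow (-a) b).symm.eq, mul_assoc]
  group
  rw [mul_assoc, ← ((T.AB n _).zpow_zpow (-a) _).eq, ← mul_assoc, ← zpow_add,
    add_neg_cancel_right]
where
  proj_zpow {f : Equiv.Perm X.Lift} {g : Equiv.Perm (T.Fib n (T.top n))}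
      (hf : ∀ x, X.proj (f x) = g (X.proj x)) (e : ℤ) (x : X.Lift) :
      X.proj ((f ^ e) x) = (g ^ e) (X.proj x) := by
    induction e generalizing x with
    | zero => rfl
    | succ e ih => rw [zpow_add_one, zpow_add_one, Equiv.Perm.mul_apply, Equiv.Perm.mul_apply, ih, hf]
    | pred e ih =>
      rw [zpow_sub_one, zpow_sub_one, Equiv.Perm.mul_apply, Equiv.Perm.mul_apply, ih]
      congr 1
      apply g.injective
      rw [← hf, Equiv.Perm.coe_inv, Equiv.apply_symm_apply, Equiv.Perm.coe_inv,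
        Equiv.apply_symm_apply]

theorem deck_adj {k : ℕ} (a b : ℤ) (c : ZMod M) {p q : LPt X} (h : Adj X k p q) :
    Adj X k (deck X a b c p) (deck X a b c q) := by
  obtain ⟨h1, h2, w, hw, hw'⟩ := h
  refine ⟨by simpa [deck] using h1, by simpa [deck] using h2, w, hw, ?_⟩
  have hc : Commute (X.z c * X.A ^ (-a) * X.B ^ (-b)) (wordPerm X.act w) := by
    refine Commute.list_prod_right _ _ fun f hf => ?_
    obtain ⟨g, -, rfl⟩ := List.mem_map.1 hf
    exact ((X.z_act c g).mul_left ((X.A_act g).zpow_left _)).mul_left ((X.B_act g).zpow_left _)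
  have := Equiv.congr_fun hc.eq p.2.2
  simp only [deck, Equiv.Perm.mul_apply] at this ⊢
  rw [← this, hw']

/-- The deck transformation between two points over the same vertex is unique and exists. -/
theorem deck_unique {v : Vert T} {p : LPt X} {a b a' b' : ℤ} {c c' : ZMod M}
    (h : deck X a b c p = deck X a' b' c' p) (_hp : Over X p v) : a = a' ∧ b = b' ∧ c = c' := by
  simp only [deck, Prod.mk.injEq] at h
  obtain ⟨h1, h2, h3⟩ := h
  have hL : (n + 3 : ℤ) ≠ 0 := by omega
  obtain rfl := mul_left_cancel₀ hL (add_left_cancel h1)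
  obtain rfl := mul_left_cancel₀ hL (add_left_cancel h2)
  refine ⟨rfl, rfl, ?_⟩
  have : X.z (c - c') (X.z c' ((X.A ^ (-a)) ((X.B ^ (-b)) p.2.2))) =
      X.z c' ((X.A ^ (-a)) ((X.B ^ (-b)) p.2.2)) := by
    rw [← Equiv.Perm.mul_apply, ← X.z_add, sub_add_cancel, h3]
  exact sub_eq_zero.1 (X.z_free _ _ this)

theorem deck_exists {v : Vert T} {p q : LPt X} (hp : Over X p v) (hq : Over X q v) :
    ∃ a b c, deck X a b c p = q := by
  obtain ⟨i, j, ŵ⟩ := p
  obtain ⟨i', j', ŵ'⟩ := q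
  have e1 : ((n + 3 : ℕ) : ℤ) ∣ i' - i :=
    (ZMod.intCast_eq_intCast_iff_dvd_sub i i' (n + 3)).1 (hp.1.trans hq.1.symm)
  have e2 : ((n + 3 : ℕ) : ℤ) ∣ j' - j :=
    (ZMod.intCast_eq_intCast_iff_dvd_sub j j' (n + 3)).1 (hp.2.1.trans hq.2.1.symm)
  obtain ⟨a, ha⟩ := e1
  obtain ⟨b, hb⟩ := e2
  push_cast at ha hb
  obtain rfl : i' = i + (n + 3 : ℤ) * a := by omega
  obtain rfl : j' = j + (n + 3 : ℤ) * b := by omega
  obtain ⟨-, -, h1⟩ := deck_over X (a := a) (b := b) (c := 0) hp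
  have h2 := hq.2.2.trans hp.2.2.symm
  rw [← hq.2.2] at h1
  simp only [below, deck] at h1
  obtain ⟨c, hc⟩ := (X.z_fibre _ _).1
    ((T.B n (T.top n) ^ _).injective ((T.A n (T.top n) ^ _).injective h1))
  refine ⟨a, b, c, ?_⟩
  simp only [deck]
  rw [z_zero] at hc
  simp only [Equiv.Perm.coe_one, id] at hc
  rw [hc]

theorem act_neg_lift {K : ℕ} (hL : X.Loops K) (hK : 2 ≤ K) (g : Gen) (x : X.Lift) :
    X.act (g.1, -g.2) (X.act g x) = x := by
  obtain ⟨c, hc⟩ := (X.z_fibre x (X.act (g.1, -g.2) (X.act g x))).1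
    (by rw [X.proj_act, X.proj_act, act_neg_apply])
  have h := hL [(g.1, -g.2), g] (by simpa using hK) x c (by simp [wordPerm, hc])
  rw [← hc, h, z_zero]
  rfl

/-- Words can be reversed. -/
theorem word_rev {K : ℕ} (hL : X.Loops K) (hK : 2 ≤ K) (w : List Gen) (x : X.Lift) :
    wordPerm X.act ((w.map fun g : Gen => (g.1, -g.2)).reverse) (wordPerm X.act w x) = x := by
  induction w generalizing x with
  | nil => rfl
  | cons g w ih =>
    simp only [wordPerm, List.map_cons, List.reverse_cons, List.map_append, List.prod_append,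
      List.prod_cons, List.map_nil, List.prod_nil, mul_one, Equiv.Perm.mul_apply] at ih ⊢
    rw [act_neg_lift X hL hK, ih]

/-- Two lifts of one vertex near one point agree. -/
theorem adj_unique {j k K : ℕ} (hL : X.Loops K) (hK : 2 ≤ K) (hjk : j + k ≤ K)
    (hn : j + k < n + 3) {v : Vert T} {p q q' : LPt X} (hq : Over X q v) (hq' : Over X q' v)
    (h : Adj X j p q) (h' : Adj X k p q') : q = q' := by
  obtain ⟨a, b, c, rfl⟩ := deck_exists X hq hq'
  obtain ⟨h1, h2, w, hw, hw'⟩ := h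
  obtain ⟨k1, k2, u, hu, hu'⟩ := h'
  simp only [deck] at k1 k2 hu'
  have hab : ∀ (x y a : ℤ), |y - x| ≤ j → |y + (n + 3 : ℤ) * a - x| ≤ k → a = 0 := by
    intro x y a hx hy
    rw [abs_le] at hx hy
    by_contra ha
    rcases lt_or_gt_of_ne ha with ha | ha
    · have : (n + 3 : ℤ) * a ≤ -(n + 3 : ℤ) := by nlinarith
      omega
    · have : (n + 3 : ℤ) ≤ (n + 3 : ℤ) * a := by nlinarith
      omega
  obtain rfl := hab _ _ _ h1 k1
  obtain rfl := hab _ _ _ h2 k2
  simp only [neg_zero, zpow_zero, Equiv.Perm.coe_one, id] at hu'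
  have hc : c = 0 := by
    refine hL (u ++ (w.map fun g : Gen => (g.1, -g.2)).reverse) (by simp; omega) q.2.2 c ?_
    rw [wordPerm, List.map_append, List.prod_append, Equiv.Perm.mul_apply]
    show wordPerm X.act u (wordPerm X.act _ q.2.2) = _
    conv_lhs => rw [← hw', word_rev X hL hK]
    exact hu'
  subst hc
  simp [deck, z_zero]

end VP212.Bundle
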