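import Vale.Agent.P212.Bundle.Cocycle
import Vale.Agent.P212.Bundle.Koszul

/-!
P212 bundles: the standard line of degree one on the torus, and the graded ring of sections of
the powers of the phase line on an open piece of the Rips complex.
-/

open Complex (I)
open scoped BoundedContinuousFunction ZeroAtInfty

namespace VP212.Bundle

/-- One coordinate of the standard frame. -/
noncomputable def tl (s t : ℝ) : ℂ :=
  (|Real.sin (Real.pi * s)| : ℝ) * Complex.exp ((2 * Real.pi * t * ⌊s⌋ : ℝ) * I)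

/-- The standard frame of the line of degree one. -/
noncomputable def tline (s t : ℝ) (i : Fin 2) : ℂ := tl (if i = 0 then s else s + 1 / 2) t

theorem norm_tl (s t : ℝ) : ‖tl s t‖ = |Real.sin (Real.pi * s)| := by
  rw [tl, norm_mul, Complex.norm_exp_ofReal_mul_I, mul_one, Complex.norm_real, Real.norm_eq_abs,
    abs_abs]

theorem continuous_tl : Continuous fun q : ℝ × ℝ => tl q.1 q.2 := by
  refine continuous_iff_continuousAt.2 fun q => ?_
  by_cases hq : (⌊q.1⌋ : ℝ) = q.1
  · have h0 : Real.sin (Real.pi * q.1) = 0 := by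
      rw [← hq, mul_comm]; exact Real.sin_int_mul_pi _
    have : Filter.Tendsto (fun y : ℝ × ℝ => |Real.sin (Real.pi * y.1)|) (nhds q) (nhds 0) := by
      have hc : Continuous fun y : ℝ × ℝ => |Real.sin (Real.pi * y.1)| := by fun_prop
      simpa [h0] using hc.tendsto q
    rw [ContinuousAt, show tl q.1 q.2 = 0 by simp [tl, h0]]
    exact squeeze_zero_norm (fun y => (norm_tl y.1 y.2).le) this
  · have hev : ∀ᶠ y : ℝ × ℝ in nhds q, ⌊y.1⌋ = ⌊q.1⌋ := by
      have ho : IsOpen (Set.Ioo (⌊q.1⌋ : ℝ) (⌊q.1⌋ + 1)) := isOpen_Ioo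
      filter_upwards [(ho.preimage continuous_fst).mem_nhds
        ⟨lt_of_le_of_ne (Int.floor_le _) hq, Int.lt_floor_add_one _⟩] with y hy
      exact Int.floor_eq_iff.2 ⟨hy.1.le, hy.2⟩
    refine ContinuousAt.congr (f := fun y : ℝ × ℝ => ((|Real.sin (Real.pi * y.1)| : ℝ) : ℂ) *
      Complex.exp ((2 * Real.pi * y.2 * ⌊q.1⌋ : ℝ) * I)) ?_ ?_
    · fun_prop
    · filter_upwards [hev] with y hy
      simp only [tl, hy]

theorem tl_add_one (s t : ℝ) : tl (s + 1) t = Complex.exp (2 * Real.pi * I * t) * tl s t := by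
  rw [tl, tl, Int.floor_add_one, mul_add, mul_one, Real.sin_add_pi, abs_neg, mul_left_comm,
    ← Complex.exp_add]
  congr 2
  push_cast
  ring

theorem tl_period (s t : ℝ) : tl s (t + 1) = tl s t := by
  rw [tl, tl]
  congr 1
  rw [show ((2 * Real.pi * (t + 1) * ⌊s⌋ : ℝ) : ℂ) * I =
    ((2 * Real.pi * t * ⌊s⌋ : ℝ) : ℂ) * I + (⌊s⌋ : ℂ) * (2 * Real.pi * I) by push_cast; ring,
    Complex.exp_add, Complex.exp_int_mul_two_pi_mul_I, mul_one]

theorem isLineFrame_tline : IsLineFrame 1 tline := by
  refine ⟨fun i => ?_, fun s t => ?_, fun s t i => tl_period _ _, fun s t i => ?_⟩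
  · by_cases hi : i = 0
    · simpa only [tline, if_pos hi] using continuous_tl
    · simp only [tline, if_neg hi]
      have hc : Continuous fun q : ℝ × ℝ => (q.1 + 1 / 2, q.2) :=
        (continuous_fst.add continuous_const).prodMk continuous_snd
      exact (continuous_tl.comp hc :)
  · simp only [Fin.sum_univ_two, tline, norm_tl, sq_abs, if_true, one_ne_zero, if_false]
    rw [show Real.pi * (s + 1 / 2) = Real.pi * s + Real.pi / 2 by ring, Real.sin_add_pi_div_two,
      Real.sin_sq_add_cos_sq]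
  · simp only [tline, Int.cast_one, mul_one]
    split_ifs
    · exact tl_add_one s t
    · rw [add_right_comm]; exact tl_add_one _ t

theorem norm_tline_le (s t : ℝ) (i : Fin 2) : ‖tline s t i‖ ≤ 1 := by
  rw [tline, norm_tl]; exact Real.abs_sin_le_one _

theorem tline_shift (s t : ℝ) (k l : ℤ) (i : Fin 2) :
    tline (s + k) (t + l) i = Complex.exp (2 * Real.pi * I * (k * t : ℝ)) * tline s t i := by
  have hp : ∀ s', tline s' (t + l) i = tline s' t i := fun s' => by
    have h : Function.Periodic (fun t => tline s' t i) 1 :=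
      fun t => isLineFrame_tline.2.2.1 s' t i
    simpa using h.int_mul l t
  rw [hp]
  induction k with
  | zero => simp
  | succ k ih =>
    rw [Int.cast_add, Int.cast_one, ← add_assoc, isLineFrame_tline.2.2.2, ih, ← mul_assoc,
      ← Complex.exp_add]
    congr 2
    push_cast
    ring
  | pred k ih =>
    have := isLineFrame_tline.2.2.2 (s + ((-(k : ℤ) - 1 : ℤ) : ℝ)) t i
    rw [show s + ((-(k : ℤ) - 1 : ℤ) : ℝ) + 1 = s + ((-(k : ℤ) : ℤ) : ℝ) by push_cast; ring,
      ih] at this
    rw [eq_comm, ← mul_right_inj' (Complex.exp_ne_zero (2 * Real.pi * I * ((1 : ℤ) : ℂ) * t)),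
      ← this, ← mul_assoc, ← Complex.exp_add]
    congr 2
    push_cast
    ring

/-- The projection onto the standard line. -/
noncomputable def tproj (s t : ℝ) : Matrix (Fin 2) (Fin 2) ℂ :=
  Matrix.of fun i j => tline s t i * starRingEnd ℂ (tline s t j)

theorem tproj_shift (s t : ℝ) (k l : ℤ) : tproj (s + k) (t + l) = tproj s t := by
  ext i j
  simp only [tproj, Matrix.of_apply, tline_shift, map_mul]
  rw [mul_mul_mul_comm, Complex.mul_conj, Complex.normSq_eq_norm_sq,
    show 2 * (Real.pi : ℂ) * I * ((k * t : ℝ) : ℂ) = ((2 * Real.pi * (k * t) : ℝ) : ℂ) * I by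
      push_cast; ring, Complex.norm_exp_ofReal_mul_I]
  simp

/-- The projection as a function on the torus. -/
noncomputable def torusProj (x : Torus) : Matrix (Fin 2) (Fin 2) ℂ :=
  tproj (AddCircle.equivIco 1 0 x.1) (AddCircle.equivIco 1 0 x.2)

theorem torusProj_coe (s t : ℝ) : torusProj (↑s, ↑t) = tproj s t := by
  have key : ∀ u : ℝ, ∃ k : ℤ, (AddCircle.equivIco 1 0 (u : UnitAddCircle) : ℝ) = u + k := by
    intro u
    have h : (((AddCircle.equivIco 1 0 (u : UnitAddCircle) : ℝ)) : UnitAddCircle) = u :=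
      (AddCircle.equivIco 1 0).symm_apply_apply _
    rw [← sub_eq_zero, ← AddCircle.coe_sub, AddCircle.coe_eq_zero_iff] at h
    obtain ⟨k, hk⟩ := h
    exact ⟨k, by rw [zsmul_one] at hk; linarith⟩
  obtain ⟨k, hk⟩ := key s
  obtain ⟨l, hl⟩ := key t
  rw [torusProj, hk, hl, tproj_shift]

variable {T : Tower} {n M : ℕ} {R : ℝ}

/-- The coordinates of a point of the Rips complex. -/
def crd (p : Rips (Vert T) R) (v : Vert T) : ℝ := p.1 v

theorem crd_nonneg (p : Rips (Vert T) R) (v : Vert T) : 0 ≤ crd p v := p.2.1 v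

theorem crd_le_one (p : Rips (Vert T) R) (v : Vert T) : crd p v ≤ 1 := by
  refine le_trans ?_ p.2.2.1.le
  exact (le_abs_self _).trans (lp.norm_apply_le_norm one_ne_zero p.1 v)

@[fun_prop]
theorem continuous_crd (v : Vert T) : Continuous fun p : Rips (Vert T) R => crd p v :=
  (continuous_coord v).comp continuous_subtype_val

variable (X : TopLift T n M) (r : ℕ) (U : Set (Rips (Vert T) R)) (S : Finset (Vert T))

/-- The part of `U` where the weight of `w` is positive. -/
abbrev Dom (w : Vert T) : Set (Rips (Vert T) R) := {p | p ∈ U ∧ 0 < crd p w}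

/-- Bounded continuous functions on the pairs of a point and a vertex of it. -/
abbrev Fn : Type := ∀ w : {w // w ∈ S}, (Dom U w.1) →ᵇ ℂ

variable {U S} in
/-- Evaluation, by zero outside the domain. -/
noncomputable def ev (f : Fn U S) (w : Vert T) (p : Rips (Vert T) R) : ℂ := by
  classical
  exact if h : w ∈ S ∧ p ∈ Dom U w then f ⟨w, h.1⟩ ⟨p, h.2⟩ else 0

variable {U S} in
theorem ev_eq (f : Fn U S) {w : Vert T} {p : Rips (Vert T) R} (hw : w ∈ S) (hp : p ∈ Dom U w) :
    ev f w p = f ⟨w, hw⟩ ⟨p, hp⟩ := by rw [ev, dif_pos ⟨hw, hp⟩]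

/-- Sections of the powers of the phase line. -/
noncomputable def deg (k : ℤ) : AddSubgroup (Fn U S) where
  carrier := {f | ∀ (v u : {w // w ∈ S}) (p : Rips (Vert T) R) (hv : p ∈ Dom U v.1)
    (hu : p ∈ Dom U u.1), f v ⟨p, hv⟩ = phase X r S v.1 u.1 (crd p) ^ (-k) * f u ⟨p, hu⟩}
  zero_mem' := by intro v u p hv hu; simp
  add_mem' := by
    intro f g hf hg v u p hv hu
    simp only [Pi.add_apply, BoundedContinuousFunction.coe_add]
    rw [hf v u p hv hu, hg v u p hv hu, mul_add]
  neg_mem' := by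
    intro f hf v u p hv hu
    simp only [Pi.neg_apply, BoundedContinuousFunction.coe_neg]
    rw [hf v u p hv hu, mul_neg]

theorem grading_deg : Grading (deg X r U S) where
  one_mem := by intro v u p hv hu; simp
  mul_mem := by
    intro i j f g hf hg v u p hv hu
    simp only [Pi.mul_apply, BoundedContinuousFunction.coe_mul]
    rw [hf v u p hv hu, hg v u p hv hu, neg_add, zpow_add₀ (phase_ne_zero _ _)]
    ring

variable {D : ℕ} (col : Vert T → Fin D)

/-- The tautological frame of the `j`-th power of the phase line, seen from `w`. -/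
noncomputable def fr (j : ℤ) (w : Vert T) (p : Rips (Vert T) R) (d : Fin D) : ℂ :=
  ∑ u ∈ S, if col u = d then (√(crd p u) : ℝ) * phase X r S w u (crd p) ^ j else 0

theorem continuous_fr (j : ℤ) (w : Vert T) (d : Fin D) :
    Continuous fun p : Rips (Vert T) R => fr X r S col j w p d := by
  have hq : Continuous fun p : Rips (Vert T) R => (qd n S w (crd p)).2 := by
    simp only [qd]; fun_prop
  refine continuous_finsetSum _ fun u _ => ?_
  split_ifs
  · simp only [phase, ← Complex.exp_int_mul, ang]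
    fun_prop
  · exact continuous_const

theorem norm_fr_le (j : ℤ) (w : Vert T) (p : Rips (Vert T) R) (d : Fin D) :
    ‖fr X r S col j w p d‖ ≤ S.card := by
  refine (norm_sum_le _ _).trans ?_
  have : ∀ u ∈ S, ‖(if col u = d then ((√(crd p u) : ℝ) : ℂ) *
      phase X r S w u (crd p) ^ j else 0)‖ ≤ 1 := by
    intro u _
    split_ifs
    · rw [norm_mul, norm_zpow, norm_phase, one_zpow, mul_one, Complex.norm_real,
        Real.norm_eq_abs, abs_of_nonneg (Real.sqrt_nonneg _)]
      exact Real.sqrt_le_one.2 (crd_le_one p u)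
    · simp
  exact (Finset.sum_le_sum this).trans (by simp)

/-- What the open piece and the colouring must satisfy. -/
structure Piece : Prop where
  loops : X.Loops (3 * r + 2)
  small : 4 * r < n + 3
  isOpen : IsOpen U
  wts : ∀ p ∈ U, Wts n r S (crd p)
  high : ∀ p ∈ U, ∀ u ∈ S, crd p u ≠ 0 → High n r u
  colour : ∀ v ∈ S, ∀ u ∈ S, Near r v u → v ≠ u → col v ≠ col u

variable {X r U S col} [NeZero M] (h : Piece X r U S col)
include h

theorem Piece.phase_mul {p : Rips (Vert T) R} (hp : p ∈ U) {v u w : Vert T} (hv : v ∈ S)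
    (hu : u ∈ S) (hw : w ∈ S) (hv0 : crd p v ≠ 0) (hu0 : crd p u ≠ 0) (hw0 : crd p w ≠ 0) :
    phase X r S v u (crd p) * phase X r S u w (crd p) = phase X r S v w (crd p) :=
  Bundle.phase_mul h.loops h.small (h.wts p hp) (h.high p hp) hv hu hw hv0 hu0 hw0

theorem Piece.fr_trans (j : ℤ) {p : Rips (Vert T) R} {v u : Vert T} (hv : v ∈ S) (hu : u ∈ S)
    (hpv : p ∈ Dom U v) (hpu : p ∈ Dom U u) (d : Fin D) :
    fr X r S col j v p d = phase X r S v u (crd p) ^ j * fr X r S col j u p d := by
  rw [fr, fr, Finset.mul_sum]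
  refine Finset.sum_congr rfl fun w hw => ?_
  split_ifs
  · by_cases h0 : crd p w = 0
    · simp [h0]
    · rw [← h.phase_mul hpv.1 hv hu hw hpv.2.ne' hpu.2.ne' h0, mul_zpow]; ring
  · simp

omit [NeZero M] in
theorem Piece.fr_unit (j : ℤ) {p : Rips (Vert T) R} {w : Vert T} (hp : p ∈ Dom U w) :
    ∑ d, fr X r S col j w p d * starRingEnd ℂ (fr X r S col j w p d) = 1 := by
  set a : Vert T → ℂ := fun u => (√(crd p u) : ℝ) * phase X r S w u (crd p) ^ j with ha
  have h1 : ∀ d, fr X r S col j w p d * starRingEnd ℂ (fr X r S col j w p d) =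
      ∑ u ∈ S, if col u = d then a u * starRingEnd ℂ (a u) else 0 := by
    intro d
    simp only [fr, map_sum, Finset.sum_mul_sum]
    refine Finset.sum_congr rfl fun u hu => ?_
    rw [Finset.sum_eq_single u]
    · split_ifs <;> simp [ha]
    · intro v hv hne
      split_ifs with h1 h2
      · by_cases hu0 : crd p u = 0
        · simp [hu0]
        by_cases hv0 : crd p v = 0
        · simp [hv0]
        exact absurd (h2.trans h1.symm)
          (h.colour v hv u hu ((h.wts p hp.1).near v hv u hu hv0 hu0) hne)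
      all_goals simp
    · exact fun hn => absurd hu hn
  rw [Finset.sum_congr rfl fun d _ => h1 d, Finset.sum_comm]
  simp only [Finset.sum_ite_eq, Finset.mem_univ, if_true]
  have h2 : ∀ u, a u * starRingEnd ℂ (a u) = (crd p u : ℂ) := by
    intro u
    rw [Complex.mul_conj, Complex.normSq_eq_norm_sq, ha, norm_mul, norm_zpow, norm_phase,
      one_zpow, mul_one, Complex.norm_real, Real.norm_eq_abs, sq_abs,
      Real.sq_sqrt (crd_nonneg p u)]
  simp only [h2, ← Complex.ofReal_sum, (h.wts p hp.1).sum, Complex.ofReal_one]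

theorem Piece.tline_trans {p : Rips (Vert T) R} {v u : Vert T} (hv : v ∈ S) (hu : u ∈ S)
    (hpv : p ∈ Dom U v) (hpu : p ∈ Dom U u) (i : Fin 2) :
    tline (qd n S v (crd p)).1 (qd n S v (crd p)).2 i =
      phase X r S v u (crd p) ^ (M : ℤ) *
        tline (qd n S u (crd p)).1 (qd n S u (crd p)).2 i := by
  obtain ⟨e1, e2⟩ := qd_hol (X := X) (h.wts p hpv.1) h.small hv hu hpv.2.ne' hpu.2.ne'
    (h.high p hpv.1 v hv hpv.2.ne')
  rw [e1, e2, tline_shift, phase_pow, e2]
  congr 1
  rw [show 2 * (Real.pi : ℂ) * I * (((hol X r v u).1 *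
      ((qd n S u (crd p)).2 + (hol X r v u).2.1) : ℝ) : ℂ) =
    2 * (Real.pi : ℂ) * I * (((hol X r v u).1 * (qd n S u (crd p)).2 : ℝ) : ℂ) +
      ((hol X r v u).1 * (hol X r v u).2.1 : ℤ) * (2 * Real.pi * I) by push_cast; ring,
    Complex.exp_add, Complex.exp_int_mul_two_pi_mul_I, mul_one]

/-- The matrices of the stable isomorphism between a high power of the line and the constants. -/
theorem Piece.exists_iso (Q : ℕ) (hQ0 : 0 < Q) (hQ : ∀ j, 0 < j → j < D → Q ∣ M.choose j) :
    ∃ a b : Multiset ℕ, Iso (deg X r U S)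
      (Sum.elim (fun _ : Unit => (M : ℤ)) fun p : b.ToType × Fin Q => exps b p.1)
      (Sum.elim (fun _ : Unit => (0 : ℤ)) fun p : a.ToType × Fin Q => exps a p.1) := by
  let mk : (j : ℤ) → Fin D → Fn U S := fun j d w =>
    BoundedContinuousFunction.ofNormedAddCommGroup (fun p => fr X r S col j w.1 p.1 d)
      ((continuous_fr X r S col j w.1 d).comp continuous_subtype_val) S.card
      (fun p => norm_fr_le X r S col j w.1 p.1 d)
  refine power_congr (grading_deg X r U S) (s := fun d => star (mk 1 d)) (t := mk 1) ?_ ?_ ?_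
    hQ0 hQ
  · intro d v u p hv hu
    show starRingEnd ℂ (fr X r S col 1 v.1 p d) =
      phase X r S v.1 u.1 (crd p) ^ (-1 : ℤ) * starRingEnd ℂ (fr X r S col 1 u.1 p d)
    rw [h.fr_trans 1 v.2 u.2 hv hu, map_mul, zpow_one, zpow_neg_one,
      Complex.inv_eq_conj (norm_phase _ _)]
  · intro d v u p hv hu
    show fr X r S col 1 v.1 p d =
      phase X r S v.1 u.1 (crd p) ^ (-(-1) : ℤ) * fr X r S col 1 u.1 p d
    rw [neg_neg]
    exact h.fr_trans 1 v.2 u.2 hv hu d
  · ext w p
    simp only [Finset.sum_apply, Pi.mul_apply, Pi.one_apply, BoundedContinuousFunction.coe_sum,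
      BoundedContinuousFunction.coe_mul, BoundedContinuousFunction.coe_one]
    exact h.fr_unit 1 p.2

end VP212.Bundle
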