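import Vale.Agent.P212.Bundle.Path

/-!
P212 bundles: the two halves of the path joined, with the values at the ends and on the roots.
-/

open Complex (I)
open Matrix

namespace VP212.Bundle

variable {T : Tower} {n M : ℕ} {R : ℝ}

/-- First half of the parameter. -/
noncomputable def th (t : ℝ) : ℝ := max 0 (min 1 (2 * t))

/-- Cosine of the turning angle of the second half. -/
noncomputable def cA (t : ℝ) : ℝ := Real.cos (Real.pi / 2 * max 0 (min 1 (2 * t - 1)))

/-- Sine of the turning angle of the second half. -/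
noncomputable def sA (t : ℝ) : ℝ := Real.sin (Real.pi / 2 * max 0 (min 1 (2 * t - 1)))

theorem cA_sA (t : ℝ) : cA t ^ 2 + sA t ^ 2 = 1 := Real.cos_sq_add_sin_sq _

theorem th_zero : th 0 = 0 := by norm_num [th]

theorem th_one : th 1 = 1 := by norm_num [th]

theorem cA_zero : cA 0 = 1 ∧ sA 0 = 0 := by norm_num [cA, sA]

theorem cA_one : cA 1 = 0 ∧ sA 1 = 1 := by norm_num [cA, sA]

variable (X : TopLift T n M) (r : ℕ) (S : Finset (Vert T))
  {D : ℕ} (col : Vert T → Fin D) {α β : Type} [Fintype α] [DecidableEq α] [Fintype β]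
  [DecidableEq β] (ea : α → ℤ) (eb : β → ℤ) {Q : ℕ} (q0 : Fin Q)
  (m : Vert T → Rips (Vert T) R → Matrix (Unit ⊕ β × Fin Q) (Unit ⊕ α × Fin Q) ℂ)
  (m' : Vert T → Rips (Vert T) R → Matrix (Unit ⊕ α × Fin Q) (Unit ⊕ β × Fin Q) ℂ)
  (χ : Rips (Vert T) R → ℝ)

/-- The projection on the line. -/
noncomputable def PL (p : Rips (Vert T) R) : Matrix (Ix α β D Q) (Ix α β D Q) ℂ :=
  avg S (fun w p => VL (n := n) S D α β q0 w p * (VL (n := n) S D α β q0 w p)ᴴ) p

/-- The projection on the first constant coordinate. -/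
noncomputable def PC : Matrix (Ix α β D Q) (Ix α β D Q) ℂ := V0 D α β q0 * (V0 D α β q0)ᴴ

/-- The turning projection of the line and the auxiliary powers. -/
noncomputable def EA (c s : ℝ) (p : Rips (Vert T) R) : Matrix (Ix α β D Q) (Ix α β D Q) ℂ :=
  avg S (fun w p => rot (fromCols (VL (n := n) S D α β q0 w p) (VB1 X r S col eb w p))
    (fromCols (V1 D α β q0) (VA X r S col ea w p)) (m w p) (m' w p) c s) p

/-- The turning projection of the constant coordinate. -/
noncomputable def EC (c s : ℝ) (p : Rips (Vert T) R) : Matrix (Ix α β D Q) (Ix α β D Q) ℂ :=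
  avg S (fun _ _ => rot (V0 D α β q0) (V1 D α β q0) 1 1 c s) p

/-- The turning projection of the auxiliary powers. -/
noncomputable def EB (c s : ℝ) (p : Rips (Vert T) R) : Matrix (Ix α β D Q) (Ix α β D Q) ℂ :=
  avg S (fun w p => rot (VB1 X r S col eb w p) (VB2 X r S col eb w p) 1 1 c s) p

/-- The turning factor. -/
noncomputable def Pr (c s : ℝ) (p : Rips (Vert T) R) : Matrix (Ix α β D Q) (Ix α β D Q) ℂ :=
  fac (zc (χ p)) (EA X r S col ea eb q0 m m' c s p) * fac (zc (-χ p)) (EC S q0 c s p) *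
    fac (zc (-χ p)) (EB X r S col eb c s p)

/-- The inverse of the turning factor. -/
noncomputable def Pr' (c s : ℝ) (p : Rips (Vert T) R) : Matrix (Ix α β D Q) (Ix α β D Q) ℂ :=
  fac (zc (χ p)) (EB X r S col eb c s p) * fac (zc (χ p)) (EC S q0 c s p) *
    fac (zc (-χ p)) (EA X r S col ea eb q0 m m' c s p)

/-- The loop factor. -/
noncomputable def Hf (t : ℝ) (p : Rips (Vert T) R) : Matrix (Ix α β D Q) (Ix α β D Q) ℂ :=
  fac (zc (th t * χ p)) (PL (n := n) S q0 p) * fac (zc (-(th t * χ p))) (PC q0)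

/-- The inverse of the loop factor. -/
noncomputable def Hf' (t : ℝ) (p : Rips (Vert T) R) : Matrix (Ix α β D Q) (Ix α β D Q) ℂ :=
  fac (zc (th t * χ p)) (PC q0) * fac (zc (-(th t * χ p))) (PL (n := n) S q0 p)

/-- The path, pointwise. -/
noncomputable def Phi (y : ℝ × Rips (Vert T) R) : Matrix (Ix α β D Q) (Ix α β D Q) ℂ :=
  Hf (n := n) S q0 χ y.1 y.2 * Pr' X r S col ea eb q0 m m' χ 1 0 y.2 *
    Pr X r S col ea eb q0 m m' χ (cA y.1) (sA y.1) y.2

/-- The inverse of the path, pointwise. -/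
noncomputable def Phi' (y : ℝ × Rips (Vert T) R) : Matrix (Ix α β D Q) (Ix α β D Q) ℂ :=
  Pr' X r S col ea eb q0 m m' χ (cA y.1) (sA y.1) y.2 * Pr X r S col ea eb q0 m m' χ 1 0 y.2 *
    Hf' (n := n) S q0 χ y.1 y.2

/-- The final projection on the constant powers. -/
noncomputable def PA (p : Rips (Vert T) R) : Matrix (Ix α β D Q) (Ix α β D Q) ℂ :=
  avg S (fun w p => VA X r S col ea w p * (VA X r S col ea w p)ᴴ) p

/-- The final projection on the second auxiliary copy. -/
noncomputable def PB (p : Rips (Vert T) R) : Matrix (Ix α β D Q) (Ix α β D Q) ℂ :=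
  avg S (fun w p => VB2 X r S col eb w p * (VB2 X r S col eb w p)ᴴ) p

theorem rot_start {ι κ μ : Type} [Fintype ι] [DecidableEq ι] [Fintype κ] [Fintype μ]
    (V : Matrix ι κ ℂ) (W : Matrix ι μ ℂ) (a : Matrix κ μ ℂ) (b : Matrix μ κ ℂ) :
    rot V W a b 1 0 = V * Vᴴ := by simp [rot]

theorem rot_end {ι κ μ : Type} [Fintype ι] [DecidableEq ι] [Fintype κ] [Fintype μ]
    [DecidableEq μ] (V : Matrix ι κ ℂ) (W : Matrix ι μ ℂ) (a : Matrix κ μ ℂ) (b : Matrix μ κ ℂ)
    (h : b * a = 1) : rot V W a b 0 1 = W * Wᴴ := by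
  simp only [rot, Complex.ofReal_zero, Complex.ofReal_one, zero_smul, zero_add, one_smul]
  rw [Matrix.mul_assoc, ← Matrix.mul_assoc b, h, Matrix.one_mul]

variable {X r S col ea eb q0 m m' χ} [NeZero M] {U : Set (Rips (Vert T) R)}

/-- What is assumed of the data of the path. -/
structure Setup (X : TopLift T n M) (r : ℕ) (U : Set (Rips (Vert T) R)) (S : Finset (Vert T))
    (col : Vert T → Fin D) (ea : α → ℤ) (eb : β → ℤ)
    (m : Vert T → Rips (Vert T) R → Matrix (Unit ⊕ β × Fin Q) (Unit ⊕ α × Fin Q) ℂ)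
    (m' : Vert T → Rips (Vert T) R → Matrix (Unit ⊕ α × Fin Q) (Unit ⊕ β × Fin Q) ℂ)
    (χ : Rips (Vert T) R → ℝ) : Prop where
  piece : Piece X r U S col
  link : Link X r U S (Sum.elim (fun _ : Unit => (M : ℤ)) fun k => eb k.1)
    (Sum.elim (fun _ : Unit => (0 : ℤ)) fun k => ea k.1) m m'
  cont : Continuous χ
  wts : ∀ p, χ p ≠ 0 → Wts n r S (crd p)
  out : ∀ p, p ∉ U → χ p = 0 ∨ χ p = 1

omit [NeZero M] in
theorem orthLR (w : Vert T) (p : Rips (Vert T) R) :
    (fromCols (VL (n := n) S D α β q0 w p) (VB1 X r S col eb w p))ᴴ *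
      fromCols (V1 D α β q0) (VA X r S col ea w p) = 0 := by
  obtain ⟨⟨-, a1, a2, -⟩, -, ⟨-, a3, -⟩, a4, -, -⟩ := cross (X := X) (r := r) (S := S) (col := col) ea eb q0 w p
  have a3' : (VB1 (Q := Q) (α := α) X r S col eb w p)ᴴ * V1 D α β q0 = 0 := by
    rw [← conjTranspose_conjTranspose (V1 D α β q0), ← conjTranspose_mul, a3, conjTranspose_zero]
  rw [conjTranspose_fromCols_eq_fromRows_conjTranspose, fromRows_mul_fromCols, a1, a2, a3', a4,
    fromBlocks_zero]

variable (h : Setup X r U S col ea eb m m' χ)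
include h

omit [NeZero M] in
theorem Setup.zc_out {p : Rips (Vert T) R} (hp : p ∉ U) : zc (χ p) = 0 ∧ zc (-χ p) = 0 := by
  rcases h.out p hp with e | e <;> simp [e, zc_zero, zc_one, zc_neg_one]

theorem Setup.frameL : Frame X r U S (Sum.elim (fun _ : Unit => (M : ℤ)) fun k => eb k.1)
    fun w p => fromCols (VL (n := n) S D α β q0 w p) (VB1 X r S col eb w p) :=
  (frame_VL q0 h.piece).sum (frame_VB1 eb h.piece) fun w _ p _ => (cross (X := X) (r := r) (S := S) (col := col) ea eb q0 w p).1.2.2.2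

theorem Setup.frameR : Frame X r U S (Sum.elim (fun _ : Unit => (0 : ℤ)) fun k => ea k.1)
    fun w p => fromCols (V1 D α β q0) (VA X r S col ea w p) :=
  (frame_V1 q0).sum (frame_VA ea h.piece) fun w _ p _ => (cross (X := X) (r := r) (S := S) (col := col) ea eb q0 w p).2.2.1.1

theorem Setup.idem {c s : ℝ} (hcs : c ^ 2 + s ^ 2 = 1) {p : Rips (Vert T) R} (hp : p ∈ U) :
    (EA X r S col ea eb q0 m m' c s p * EA X r S col ea eb q0 m m' c s p =
        EA X r S col ea eb q0 m m' c s p) ∧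
      (EC (D := D) (α := α) (β := β) S q0 c s p * EC S q0 c s p = EC S q0 c s p) ∧
      (EB (Q := Q) (α := α) X r S col eb c s p * EB X r S col eb c s p = EB X r S col eb c s p) :=
  ⟨avg_rot_sq h.piece h.frameL h.frameR h.link (fun w _ p _ => orthLR w p) hcs hp,
    avg_rot_sq h.piece (frame_V0 q0) (frame_V1 q0) (Link.one X r U S _)
      (fun w _ p _ => (cross (X := X) (r := r) (S := S) (col := col) ea eb q0 w p).2.1.1) hcs hp,
    avg_rot_sq h.piece (frame_VB1 eb h.piece) (frame_VB2 eb h.piece) (Link.one X r U S _)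
      (fun w _ p _ => (cross (X := X) (r := r) (S := S) (col := col) ea eb q0 w p).2.2.2.2.1) hcs hp⟩

theorem Setup.pr_inv {c s : ℝ} (hcs : c ^ 2 + s ^ 2 = 1) (p : Rips (Vert T) R) :
    Pr X r S col ea eb q0 m m' χ c s p * Pr' X r S col ea eb q0 m m' χ c s p = 1 ∧
      Pr' X r S col ea eb q0 m m' χ c s p * Pr X r S col ea eb q0 m m' χ c s p = 1 := by
  by_cases hp : p ∈ U
  · obtain ⟨i1, i2, i3⟩ := h.idem hcs hp
    obtain ⟨a1, a2⟩ := fac_inv (x := χ p) (Or.inr (Or.inr i1))
    obtain ⟨b1, b2⟩ := fac_inv (x := χ p) (Or.inr (Or.inr i2))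
    obtain ⟨c1, c2⟩ := fac_inv (x := χ p) (Or.inr (Or.inr i3))
    simp only [Pr, Pr', Matrix.mul_assoc]
    constructor
    · rw [← Matrix.mul_assoc (fac (zc (-χ p)) (EB X r S col eb c s p)), c2, Matrix.one_mul,
        ← Matrix.mul_assoc (fac (zc (-χ p)) (EC S q0 c s p)), b2, Matrix.one_mul, a1]
    · rw [← Matrix.mul_assoc (fac (zc (-χ p)) (EA X r S col ea eb q0 m m' c s p)), a2,
        Matrix.one_mul, ← Matrix.mul_assoc (fac (zc (χ p)) (EC S q0 c s p)), b1, Matrix.one_mul, c1]
  · obtain ⟨e1, e2⟩ := h.zc_out hp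
    simp [Pr, Pr', fac, e1, e2]

omit [NeZero M] in
theorem Setup.PL_eq {p : Rips (Vert T) R} (hx : Wts n r S (crd p)) {u : Vert T} (hu : u ∈ S)
    (hu0 : 0 < crd p u) :
    PL (n := n) (D := D) (α := α) (β := β) S q0 p =
      VL (n := n) S D α β q0 u p * (VL (n := n) S D α β q0 u p)ᴴ := by
  refine avg_eq hx.sum fun w hw hw0 => ?_
  obtain ⟨k, l, e1, e2⟩ := qd_shift hx h.piece.small hw hu hw0.ne' hu0.ne'
  set g := Complex.exp (2 * Real.pi * I * (k * (qd n S u (crd p)).2 : ℝ)) with hg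
  have e : VL (n := n) S D α β q0 w p =
      VL (n := n) S D α β q0 u p * diagonal fun _ : Unit => g := by
    rw [VL, VL, colMat_mul_diagonal]
    congr 1
    funext _ i
    rw [e1, e2, tline_shift, mul_comm]
  rw [e, conjTranspose_mul, diagonal_conjTranspose, Matrix.mul_assoc, ← Matrix.mul_assoc (diagonal _),
    diagonal_mul_diagonal]
  have : g * starRingEnd ℂ g = 1 := by
    rw [hg, show 2 * (Real.pi : ℂ) * I * ((k * (qd n S u (crd p)).2 : ℝ) : ℂ) =
      ((2 * Real.pi * (k * (qd n S u (crd p)).2) : ℝ) : ℂ) * I by push_cast; ring,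
      Complex.mul_conj, Complex.normSq_eq_norm_sq, Complex.norm_exp_ofReal_mul_I]
    simp
  simp [this]

omit [NeZero M] in
theorem Setup.hf_inv (t : ℝ) (p : Rips (Vert T) R) :
    Hf (n := n) (D := D) (α := α) (β := β) S q0 χ t p * Hf' (n := n) S q0 χ t p = 1 ∧
      Hf' (n := n) (D := D) (α := α) (β := β) S q0 χ t p * Hf (n := n) S q0 χ t p = 1 := by
  obtain ⟨b1, b2⟩ := fac_inv (x := th t * χ p) (E := PC (D := D) (α := α) (β := β) q0) (Or.inr (Or.inr (proj_idem
    (colMat_unit (fun _ _ _ _ _ => ⟨Subsingleton.elim _ _, Subsingleton.elim _ _⟩)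
      fun _ => by simp))))
  obtain ⟨a1, a2⟩ := fac_inv (x := th t * χ p) (E := PL (n := n) (D := D) (α := α) (β := β) S q0 p) (by
    by_cases hp : χ p = 0
    · left; simp [hp]
    · right; right
      obtain ⟨u, hu, hu0⟩ := exists_pos_weight (h.wts p hp).sum
      rw [h.PL_eq (h.wts p hp) hu hu0]
      refine proj_idem (colMat_unit (fun _ j _ j' e => ⟨Subsingleton.elim _ _, by simpa using e⟩) ?_)
      intro _
      have e := isLineFrame_tline.2.1 (qd n S u (crd p)).1 (qd n S u (crd p)).2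
      simp only [Complex.mul_conj, Complex.normSq_eq_norm_sq, ← Complex.ofReal_sum, e,
        Complex.ofReal_one])
  simp only [Hf, Hf', Matrix.mul_assoc]
  constructor
  · rw [← Matrix.mul_assoc (fac (zc (-(th t * χ p))) (PC q0)), b2, Matrix.one_mul, a1]
  · rw [← Matrix.mul_assoc (fac (zc (-(th t * χ p))) (PL (n := n) S q0 p)), a2, Matrix.one_mul, b1]

theorem Setup.phi_inv (y : ℝ × Rips (Vert T) R) :
    Phi X r S col ea eb q0 m m' χ y * Phi' X r S col ea eb q0 m m' χ y = 1 ∧
      Phi' X r S col ea eb q0 m m' χ y * Phi X r S col ea eb q0 m m' χ y = 1 := by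
  obtain ⟨a1, a2⟩ := h.hf_inv (q0 := q0) y.1 y.2
  obtain ⟨b1, b2⟩ := h.pr_inv (q0 := q0) (c := 1) (s := 0) (by norm_num) y.2
  obtain ⟨c1, c2⟩ := h.pr_inv (q0 := q0) (cA_sA y.1) y.2
  simp only [Phi, Phi', Matrix.mul_assoc]
  constructor
  · rw [← Matrix.mul_assoc (Pr X r S col ea eb q0 m m' χ (cA y.1) (sA y.1) y.2), c1,
      Matrix.one_mul, ← Matrix.mul_assoc (Pr' X r S col ea eb q0 m m' χ 1 0 y.2), b2,
      Matrix.one_mul, a1]
  · rw [← Matrix.mul_assoc (Hf' (n := n) S q0 χ y.1 y.2), a2, Matrix.one_mul,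
      ← Matrix.mul_assoc (Pr X r S col ea eb q0 m m' χ 1 0 y.2), b1, Matrix.one_mul, c2]

theorem Setup.continuous_phi :
    Continuous (Phi X r S col ea eb q0 m m' χ) ∧ Continuous (Phi' X r S col ea eb q0 m m' χ) := by
  have hπ : Continuous (fun y : ℝ × Rips (Vert T) R => y.2) := continuous_snd
  have hth : Continuous th := continuous_const.max (continuous_const.min (continuous_const.mul continuous_id))
  have hc : Continuous fun y : ℝ × Rips (Vert T) R => cA y.1 := by unfold cA; fun_prop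
  have hs : Continuous fun y : ℝ × Rips (Vert T) R => sA y.1 := by unfold sA; fun_prop
  have hz : Continuous fun y : ℝ × Rips (Vert T) R => χ y.2 := h.cont.comp hπ
  have hz' : Continuous fun y : ℝ × Rips (Vert T) R => th y.1 * χ y.2 :=
    (hth.comp continuous_fst).mul hz
  have g1 : Continuous fun y : ℝ × Rips (Vert T) R => zc (χ y.2) := continuous_zc.comp hz
  have g2 : Continuous fun y : ℝ × Rips (Vert T) R => zc (-χ y.2) := continuous_zc.comp hz.neg
  have hL : ∀ {g : ℝ × Rips (Vert T) R → ℂ}, Continuous g →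
      Continuous fun y => fac (g y) (PL (n := n) (D := D) (α := α) (β := β) S q0 y.2) := by
    intro g hg
    refine continuous_const.add (hg.smul ((?_ : Continuous (PL (n := n) (D := D) (α := α) (β := β) S q0)).comp hπ))
    refine continuous_finsetSum _ fun w _ => ?_
    have hq : Continuous fun p : Rips (Vert T) R => qd n S w (crd p) := by simp only [qd]; fun_prop
    have hV : Continuous fun p : Rips (Vert T) R => VL (n := n) S D α β q0 w p := by
      refine continuous_matrix fun i j => ?_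
      simp only [VL, colMat, Matrix.of_apply]
      refine continuous_finsetSum _ fun k _ => ?_
      split_ifs
      · exact (isLineFrame_tline.1 k).comp hq
      · exact continuous_const
    exact (Complex.continuous_ofReal.comp (continuous_crd w)).smul
      (hV.matrix_mul hV.matrix_conjTranspose)
  have hC : ∀ {g : ℝ × Rips (Vert T) R → ℂ}, Continuous g →
      Continuous fun y => fac (g y) (PC (D := D) (α := α) (β := β) q0) :=
    fun hg => continuous_const.add (hg.smul continuous_const)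
  have hT : ∀ {c s : ℝ × Rips (Vert T) R → ℝ}, Continuous c → Continuous s →
      (∀ y, |c y| ≤ 1) → (∀ y, |s y| ≤ 1) →
      Continuous (fun y => Pr X r S col ea eb q0 m m' χ (c y) (s y) y.2) ∧
        Continuous (fun y => Pr' X r S col ea eb q0 m m' χ (c y) (s y) y.2) := by
    intro c s hc hs hc1 hs1
    have o1 : ∀ y : ℝ × Rips (Vert T) R, y.2 ∉ U → zc (χ y.2) = 0 := fun y hy => (h.zc_out hy).1
    have o2 : ∀ y : ℝ × Rips (Vert T) R, y.2 ∉ U → zc (-χ y.2) = 0 := fun y hy => (h.zc_out hy).2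
    have A1 := continuous_avg_rot h.piece (h.frameL (q0 := q0)) (h.frameR (q0 := q0)) h.link hπ g1 o1 hc hs hc1 hs1
    have A2 := continuous_avg_rot h.piece (h.frameL (q0 := q0)) (h.frameR (q0 := q0)) h.link hπ g2 o2 hc hs hc1 hs1
    have C1 := continuous_avg_rot h.piece (frame_V0 (D := D) (α := α) (β := β) q0) (frame_V1 q0)
      (Link.one X r U S _) hπ g1 o1 hc hs hc1 hs1
    have C2 := continuous_avg_rot h.piece (frame_V0 (D := D) (α := α) (β := β) q0) (frame_V1 q0)
      (Link.one X r U S _) hπ g2 o2 hc hs hc1 hs1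
    have B1 := continuous_avg_rot h.piece (frame_VB1 (α := α) (Q := Q) eb h.piece) (frame_VB2 eb h.piece)
      (Link.one X r U S _) hπ g1 o1 hc hs hc1 hs1
    have B2 := continuous_avg_rot h.piece (frame_VB1 (α := α) (Q := Q) eb h.piece) (frame_VB2 eb h.piece)
      (Link.one X r U S _) hπ g2 o2 hc hs hc1 hs1
    exact ⟨(((continuous_const.add A1).matrix_mul (continuous_const.add C2)).matrix_mul
        (continuous_const.add B2) :),
      (((continuous_const.add B1).matrix_mul (continuous_const.add C1)).matrix_mul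
        (continuous_const.add A2) :)⟩
  have h0 := hT (c := fun _ => 1) (s := fun _ => 0) continuous_const continuous_const
    (fun _ => by norm_num) (fun _ => by norm_num)
  have h1 := hT hc hs (fun _ => Real.abs_cos_le_one _) (fun _ => Real.abs_sin_le_one _)
  exact ⟨(((hL (continuous_zc.comp hz')).matrix_mul (hC (continuous_zc.comp hz'.neg))).matrix_mul
      h0.2).matrix_mul h1.1,
    (h1.2.matrix_mul h0.1).matrix_mul
      ((hC (continuous_zc.comp hz')).matrix_mul (hL (continuous_zc.comp hz'.neg)))⟩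

end VP212.Bundle
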