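import Vale.Agent.P212.Bundle.Root

/-!
P212 bundles: for every scale and multiplier a path which is a loop of lines of degree one at the
roots of one component.
-/

open Complex (I)
open Matrix
open scoped ZeroAtInfty

namespace VP212.Bundle

theorem dvd_choose_pow {e k j D : ℕ} (hj : 0 < j) (hjD : j < D) (h : k + D ≤ e) :
    5 ^ k ∣ (5 ^ e).choose j := by
  have hp : Nat.Prime 5 := by norm_num
  have hlt : D < 5 ^ e := lt_of_lt_of_le (Nat.lt_pow_self (by norm_num : 1 < 5))
    (Nat.pow_le_pow_right (by norm_num) (by omega))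
  have hle : j ≤ 5 ^ e := by omega
  rw [Nat.Prime.pow_dvd_iff_le_factorization hp (Nat.choose_pos hle).ne',
    Nat.factorization_choose_prime_pow hp hle hj.ne']
  have : j.factorization 5 < j := Nat.factorization_lt 5 hj.ne'
  omega

variable {Y : Type} [TopologicalSpace Y]

theorem c0_mul_apply {ι : Type} [Fintype ι] (A B : Matrix ι ι (C₀(Y, ℂ))) (i j : ι) (y : Y) :
    (A * B) i j y = ∑ k, A i k y * B k j y := by
  rw [Matrix.mul_apply]
  exact map_sum (⟨⟨fun f => f y, rfl⟩, fun _ _ => rfl⟩ : C₀(Y, ℂ) →+ ℂ) _ _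

theorem cut_root {T : Tower} {R : ℝ} {n n' N : ℕ} {x : Torus} {q : Rips (Vert T) R}
    (h : IsRootPoint T n' x q) : cut n N q = if n' = n then 1 else 0 := by
  obtain ⟨-, h0⟩ := h
  have hv : ∀ v, crd q v ≠ 0 → v.n = n' ∧ v.l = 0 := by
    intro v hv
    by_contra hc
    exact hv (h0 v fun ⟨z, hz⟩ => hc (by subst hz; exact ⟨rfl, rfl⟩))
  split_ifs with hn
  · subst hn
    have hsum := sum_crd q (low T n' N) fun v hvS => by
      by_contra h1
      obtain ⟨a, b⟩ := hv v h1
      exact hvS (mem_low.2 ⟨a, by omega⟩)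
    rw [cut, min_eq_left]
    rw [← hsum]
    refine Finset.sum_le_sum fun v _ => ?_
    by_cases h1 : crd q v = 0
    · simp [h1]
    · rw [(hv v h1).2]
      have : (0 : ℝ) ≤ N := Nat.cast_nonneg N
      exact le_mul_of_one_le_right (crd_nonneg q v) (by push_cast; linarith)
  · have h2 : ∀ v ∈ low T n N, crd q v * ((N : ℝ) + 1 - v.l) = 0 := fun v hvS => by
      by_cases h1 : crd q v = 0
      · simp [h1]
      · exact absurd ((hv v h1).1.symm.trans (mem_low.1 hvS).1) hn
    rw [cut, Finset.sum_eq_zero h2]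
    simp

/-- The bundle input. -/
theorem bundle : BundleSpec := by
  intro T hT R hR k hk
  classical
  set r := ⌊R⌋₊ with hr
  set D := ballBound T r with hD
  obtain ⟨N0, hN0⟩ := hT (3 * r + 2)
  set n := max N0 (4 * r + k + D) with hn
  have hn1 : 4 * r + k + D ≤ n := le_max_right _ _
  obtain ⟨X, hX⟩ := hN0 n (le_max_left _ _)
  have hRn : R < n + 1 := by
    have h1 := Nat.lt_floor_add_one R
    have h2 : (r : ℝ) ≤ n := by exact_mod_cast (by omega : r ≤ n)
    rw [← hr] at h1
    linarith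
  have : NeZero (5 ^ (2 * n)) := ⟨by positivity⟩
  set N := T.top n + 2 * r with hN
  set S := low T n (N + r) with hS
  set χ : Rips (Vert T) R → ℝ := cut n N with hχ
  set U : Set (Rips (Vert T) R) := {p | 0 < χ p ∧ χ p < 1} with hU
  obtain ⟨col, hcol⟩ : ∃ col : Vert T → Fin D, ∀ v ∈ S, ∀ u ∈ S, Near r v u → v ≠ u →
      col v ≠ col u := exists_colour r S
  have hpiece : Piece X r U S col :=
    { loops := hX
      small := by omega
      isOpen := (isOpen_lt continuous_const (continuous_cut N)).inter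
        (isOpen_lt (continuous_cut N) continuous_const)
      wts := fun p hp => wts_of_cut hRn hp.1.ne'
      high := fun p hp u _ hu0 => by
        obtain ⟨a, b⟩ := high_of_cut hRn hp.1.ne' hp.2 u hu0
        exact ⟨a, by rw [hN] at b; omega⟩
      colour := hcol }
  obtain ⟨a, b, m, m', h1, h2, h3, h4⟩ := hpiece.exists_iso (5 ^ k) (by positivity)
    fun j hj hjD => dvd_choose_pow hj hjD (by omega)
  set ea := exps a
  set eb := exps b
  set mm : Vert T → Rips (Vert T) R → _ := fun w p => m.map fun x => ev x w p with hmm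
  set mm' : Vert T → Rips (Vert T) R → _ := fun w p => m'.map fun x => ev x w p with hmm'
  have hs : Setup X r U S col ea eb mm mm' χ :=
    { piece := hpiece
      link := link_of_iso h1 h2 h3 h4
      cont := continuous_cut N
      wts := fun p hp => wts_of_cut hRn hp
      out := fun p hp => by
        by_contra hc
        push Not at hc
        exact hp ⟨lt_of_le_of_ne (cut_nonneg N p) (Ne.symm hc.1),
          lt_of_le_of_ne (min_le_left _ _) hc.2⟩ }
  set q0 : Fin (5 ^ k) := ⟨0, by positivity⟩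
  set K : Set (Rips (Vert T) R) := {p | ∀ v, v ∉ S → crd p v = 0}
  have hK : IsCompact K := isCompact_supported S
  have hout : ∀ p, p ∉ K → χ p = 0 := by
    intro p hp
    by_contra hc
    refine hp fun v hv => ?_
    by_contra h0
    exact hv (mem_low.2 (supp_of_cut hRn hc v h0))
  set Φ := Phi X r S col ea eb q0 mm mm' χ with hΦ
  set Φ' := Phi' X r S col ea eb q0 mm mm' χ with hΦ'
  obtain ⟨cΦ, cΦ'⟩ := hs.continuous_phi (q0 := q0)
  have hF : ∀ i j, Continuous fun y => Φ y i j - (1 : Matrix _ _ ℂ) i j :=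
    fun i j => ((continuous_apply_apply i j).comp cΦ).sub continuous_const
  have hF' : ∀ i j, Continuous fun y => Φ' y i j - (1 : Matrix _ _ ℂ) i j :=
    fun i j => ((continuous_apply_apply i j).comp cΦ').sub continuous_const
  have h0 : ∀ i j t p, p ∉ K → Φ (t, p) i j - (1 : Matrix _ _ ℂ) i j = 0 := fun i j t p hp => by
    rw [hΦ, (phi_null (y := (t, p)) (hout p hp)).1, sub_self]
  have h0' : ∀ i j t p, p ∉ K → Φ' (t, p) i j - (1 : Matrix _ _ ℂ) i j = 0 := fun i j t p hp => by
    rw [hΦ', (phi_null (y := (t, p)) (hout p hp)).2, sub_self]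
  let A : ℝ → Matrix (Ix a.ToType b.ToType D (5 ^ k)) (Ix a.ToType b.ToType D (5 ^ k))
      C₀(Rips (Vert T) R, ℂ) := fun t => Matrix.of fun i j => toC0 (hF i j) hK (h0 i j) t
  let B : ℝ → Matrix (Ix a.ToType b.ToType D (5 ^ k)) (Ix a.ToType b.ToType D (5 ^ k))
      C₀(Rips (Vert T) R, ℂ) := fun t => Matrix.of fun i j => toC0 (hF' i j) hK (h0' i j) t
  have hA : ∀ t i j p, A t i j p = Φ (t, p) i j - (1 : Matrix _ _ ℂ) i j := fun _ _ _ _ => rfl
  have hB : ∀ t i j p, B t i j p = Φ' (t, p) i j - (1 : Matrix _ _ ℂ) i j := fun _ _ _ _ => rfl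
  have halg : ∀ {ι : Type} [Fintype ι] [DecidableEq ι] (P P' : Matrix ι ι ℂ), P * P' = 1 →
      ∀ i j, (P i j - (1 : Matrix ι ι ℂ) i j) + (P' i j - (1 : Matrix ι ι ℂ) i j) +
        ∑ l, (P i l - (1 : Matrix ι ι ℂ) i l) * (P' l j - (1 : Matrix ι ι ℂ) l j) = 0 := by
    intro ι _ _ P P' hPP i j
    have e : (P - 1) + (P' - 1) + (P - 1) * (P' - 1) = 0 := by
      rw [mul_sub, sub_mul, sub_mul, hPP]; simp only [one_mul, mul_one]; abel
    have := congrFun (congrFun e i) j
    simpa [Matrix.mul_apply] using this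
  have hab : ∀ t, A t + B t + A t * B t = 0 := fun t => by
    ext i j p
    simp only [Matrix.add_apply, ZeroAtInftyContinuousMap.add_apply, c0_mul_apply, hA, hB]
    exact halg _ _ (hs.phi_inv (q0 := q0) (t, p)).1 i j
  have hba : ∀ t, A t + B t + B t * A t = 0 := fun t => by
    ext i j p
    simp only [Matrix.add_apply, ZeroAtInftyContinuousMap.add_apply, c0_mul_apply, hA, hB]
    rw [add_comm (Φ (t, p) i j - _)]
    exact halg _ _ (hs.phi_inv (q0 := q0) (t, p)).2 i j
  have hend : ∀ (i j : Coord a.ToType b.ToType D) (x y : Fin (5 ^ k)),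
      (A 1 (i, x) (j, y) = if x = y then A 1 (i, q0) (j, q0) else 0) ∧
      B 1 (i, x) (j, y) = if x = y then B 1 (i, q0) (j, q0) else 0 := by
    intro i j x y
    constructor <;> ext p
    all_goals
      obtain ⟨e, e'⟩ := hs.phi_end (q0 := q0) p
      obtain ⟨fA, fB⟩ := final_copies (X := X) (r := r) (S := S) (col := col) (ea := ea) (eb := eb)
        (q0 := q0) p i j x y
      by_cases hxy : x = y
      · rw [if_pos hxy] at fA fB ⊢
        simp [hA, hB, hΦ, hΦ', e, e', fA, fB]
        ring
      · rw [if_neg hxy] at fA fB ⊢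
        simp [hA, hB, hΦ, hΦ', e, e', fA, fB]
  have hfin : ∀ (U V : Matrix (Ix a.ToType b.ToType D (5 ^ k)) (Ix a.ToType b.ToType D (5 ^ k))
      C₀(Rips (Vert T) R, ℂ)),
      (∀ i j x y, U (i, x) (j, y) = if x = y then U (i, q0) (j, q0) else 0) → U + V + U * V = 0 →
      (Matrix.of fun i j => U (i, q0) (j, q0)) + (Matrix.of fun i j => V (i, q0) (j, q0)) +
        (Matrix.of fun i j => U (i, q0) (j, q0)) * (Matrix.of fun i j => V (i, q0) (j, q0)) = 0 := by
    intro U V hUd hUV
    ext i j p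
    have := congrArg (fun W : Matrix _ _ C₀(Rips (Vert T) R, ℂ) => W (i, q0) (j, q0) p) hUV
    simp only [Matrix.add_apply, ZeroAtInftyContinuousMap.add_apply, c0_mul_apply, Matrix.of_apply,
      Fintype.sum_prod_type] at this ⊢
    refine Eq.trans ?_ this
    congr 1
    refine Finset.sum_congr rfl fun l _ => ?_
    rw [Finset.sum_eq_single q0 (fun y _ hy => by rw [hUd i l q0 y, if_neg (Ne.symm hy)]; simp)
      (by simp)]
  let path : QPath (C₀(Rips (Vert T) R, ℂ)) (5 ^ k) :=
    { ι := Coord a.ToType b.ToType D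
      a := A
      b := B
      cont_a := fun i j => continuous_toC0 (hF i j) hK (h0 i j)
      cont_b := fun i j => continuous_toC0 (hF' i j) hK (h0' i j)
      inv_ab := hab
      inv_ba := hba
      start := by
        ext i j p
        simp [hA, hΦ, hs.phi_start]
      finish := by
        refine ⟨Matrix.of fun i j => A 1 (i, q0) (j, q0), Matrix.of fun i j => B 1 (i, q0) (j, q0),
          hfin _ _ (fun i j x y => (hend i j x y).1) (hab 1), ?_, fun i j x y => (hend i j x y).1⟩
        have h := hfin _ _ (fun i j x y => (hend i j x y).2)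
          (by rw [add_comm (B 1)]; exact hba 1 : B 1 + A 1 + B 1 * A 1 = 0)
        rw [add_comm (Matrix.of fun i j => A 1 (i, q0) (j, q0))]
        exact h }
  refine ⟨n, 5 ^ k, by positivity, path, th, 1, 1, ∅, {(Coord.c0, q0)},
    Ptor D a.ToType b.ToType q0, ?_, ?_, th_zero, by simp [th_one], Or.inl rfl, Or.inl rfl,
    by simp, Finset.disjoint_empty_left _, isLinePlus_Ptor q0, fun x => ?_, fun x => ?_, ?_, ?_⟩
  · intro hdvd
    have h5 : k < 5 ^ k := Nat.lt_pow_self (by norm_num)
    have := Nat.le_of_dvd hk (by exact_mod_cast hdvd)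
    omega
  · exact continuous_const.max (continuous_const.min (continuous_const.mul continuous_id))
  · rw [← PC_eq_coordProj q0]; exact (Ptor_PC q0 x).1
  · rw [← PC_eq_coordProj q0]; exact (Ptor_PC q0 x).2
  · intro t _ x q hq
    obtain ⟨xs, xt⟩ := x
    obtain ⟨s, rfl⟩ := QuotientAddGroup.mk_surjective xs
    obtain ⟨u, rfl⟩ := QuotientAddGroup.mk_surjective xt
    have hc : χ q = 1 := by rw [hχ, cut_root hq, if_pos rfl]
    obtain ⟨v, hv, hv0, l1, l2, hqd⟩ := root_point s u hq S
      fun z => mem_low.2 ⟨rfl, Nat.zero_le _⟩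
    have hPL : PL (n := n) (D := D) (α := a.ToType) (β := b.ToType) S q0 q =
        Ptor D a.ToType b.ToType q0 (↑s, ↑u) := by
      rw [hs.PL_eq (hs.wts q (by rw [hc]; exact one_ne_zero)) hv hv0, Ptor_coe,
        ← colL_shift q0 s u l1 l2]
      show colL D a.ToType b.ToType q0 (qd n S v (crd q)).1 (qd n S v (crd q)).2 * (colL D
        a.ToType b.ToType q0 (qd n S v (crd q)).1 (qd n S v (crd q)).2)ᴴ = _
      rw [hqd]
    have e := phi_root (X := X) (r := r) (S := S) (col := col) (ea := ea) (eb := eb) (q0 := q0)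
      (m := mm) (m' := mm') (χ := χ) (y := (t, q)) hc
    have ez : ∀ x : ℝ, zc x = Complex.exp (2 * Real.pi * I * x) - 1 := fun x => by
      rw [zc]; push_cast; ring_nf
    rw [← PC_eq_coordProj q0]
    ext i j
    show A t i j q = _
    rw [hA, hΦ, e, hPL]
    simp only [ez, Matrix.add_apply, Matrix.smul_apply, smul_eq_mul, Complex.ofReal_neg, mul_neg]
    ring
  · intro t _ n' hn' x q hq
    have hc : χ q = 0 := by rw [hχ, cut_root hq, if_neg hn']
    ext i j
    show A t i j q = 0
    rw [hA, hΦ, (phi_null (y := (t, q)) hc).1, sub_self]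

end VP212.Bundle
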