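import Vale.Agent.P212.Bundle.Lift

/-!
P212 bundles: displacements and levels along short walks, and colourings of bounded size.
-/

namespace VP212.Bundle

variable {T : Tower} {n : ℕ}

/-- Joined by a walk of length at most `r`. -/
def Near (r : ℕ) (v u : Vert T) : Prop := ∃ p : (vertGraph T).Walk v u, p.length ≤ r

theorem Near.symm {r : ℕ} {v u : Vert T} (h : Near r v u) : Near r u v :=
  let ⟨p, hp⟩ := h
  ⟨p.reverse, by simpa using hp⟩

theorem rel_facts {x y : Vert T} (hx : x.n = n) (h : edgeRel x y) :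
    y.n = n ∧ y.l ≤ x.l + 1 ∧ x.l ≤ y.l + 1 ∧ ∃ e f : ℤ, |e| ≤ 1 ∧ |f| ≤ 1 ∧
      ((zi y).1 : ZMod (n + 3)) = (zi x).1 + e ∧ ((zi y).2 : ZMod (n + 3)) = (zi x).2 + f := by
  obtain ⟨n', z, l, w⟩ := x
  dsimp only at hx
  subst hx
  rcases h with ⟨g, rfl⟩ | rfl | rfl | ⟨v, -, rfl⟩
  · exact ⟨rfl, by simp [stepG], by simp [stepG], 0, 0, by simp, by simp, by simp [stepG, zi],
      by simp [stepG, zi]⟩
  · exact ⟨rfl, by simp [stepA], by simp [stepA], 1, 0, by simp, by simp, by simp [stepA, zi],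
      by simp [stepA, zi]⟩
  · exact ⟨rfl, by simp [stepB], by simp [stepB], 0, 1, by simp, by simp, by simp [stepB, zi],
      by simp [stepB, zi]⟩
  · exact ⟨rfl, le_rfl, Nat.le_add_right l 2, 0, 0, by simp, by simp, by simp [zi],
      by simp [zi]⟩

theorem adj_facts {v u : Vert T} (hv : v.n = n) (h : (vertGraph T).Adj v u) :
    u.n = n ∧ u.l ≤ v.l + 1 ∧ v.l ≤ u.l + 1 ∧ ∃ e f : ℤ, |e| ≤ 1 ∧ |f| ≤ 1 ∧
      ((zi u).1 : ZMod (n + 3)) = (zi v).1 + e ∧ ((zi u).2 : ZMod (n + 3)) = (zi v).2 + f := by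
  obtain ⟨-, hr | hr⟩ := (SimpleGraph.fromRel_adj _ _ _).1 h
  · exact rel_facts hv hr
  · have hn : u.n = n := by
      rcases hr with ⟨g, rfl⟩ | rfl | rfl | ⟨v, -, rfl⟩ <;> exact hv
    obtain ⟨-, h1, h2, e, f, he, hf, h3, h4⟩ := rel_facts hn hr
    exact ⟨hn, h2, h1, -e, -f, by rwa [abs_neg], by rwa [abs_neg],
      by rw [h3]; push_cast; ring, by rw [h4]; push_cast; ring⟩

theorem walk_facts {v u : Vert T} (p : (vertGraph T).Walk v u) (hv : v.n = n) :
    u.n = n ∧ u.l ≤ v.l + p.length ∧ v.l ≤ u.l + p.length ∧ ∃ e f : ℤ,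
      |e| ≤ p.length ∧ |f| ≤ p.length ∧
      ((zi u).1 : ZMod (n + 3)) = (zi v).1 + e ∧ ((zi u).2 : ZMod (n + 3)) = (zi v).2 + f := by
  induction p with
  | nil => exact ⟨hv, le_rfl, le_rfl, 0, 0, by simp, by simp, by simp, by simp⟩
  | cons h p ih =>
    obtain ⟨hn, a1, a2, e, f, he, hf, h3, h4⟩ := adj_facts hv h
    obtain ⟨hu, b1, b2, e', f', he', hf', k3, k4⟩ := ih hn
    refine ⟨hu, ?_, ?_, e + e', f + f', ?_, ?_, ?_, ?_⟩
    · rw [SimpleGraph.Walk.length_cons]; omega
    · rw [SimpleGraph.Walk.length_cons]; omega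
    · rw [SimpleGraph.Walk.length_cons]
      refine (abs_add_le _ _).trans ?_
      push_cast
      omega
    · rw [SimpleGraph.Walk.length_cons]
      refine (abs_add_le _ _).trans ?_
      push_cast
      omega
    · rw [k3, h3]; push_cast; ring
    · rw [k4, h4]; push_cast; ring

theorem Near.facts {r : ℕ} {v u : Vert T} (h : Near r v u) (hv : v.n = n) :
    u.n = n ∧ u.l ≤ v.l + r ∧ v.l ≤ u.l + r := by
  obtain ⟨p, hp⟩ := h
  obtain ⟨a, b, c, -⟩ := walk_facts p hv
  exact ⟨a, by omega, by omega⟩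

theorem near_of_dist {v u : Vert T} {R : ℝ} (hv : v.n = n) (hR : R < n + 1)
    (h : dist v u ≤ R) : Near ⌊R⌋₊ v u := by
  obtain ⟨-, p, hp⟩ := dist_le_walk hv hR h
  exact ⟨p, Nat.le_floor hp⟩

theorem dlt_spec {r : ℕ} {v u : Vert T} (h : Near r v u) (hv : v.n = n) (hr : 2 * r < n + 3) :
    |(dlt n v u).1| ≤ r ∧ |(dlt n v u).2| ≤ r ∧
      ((zi u).1 : ZMod (n + 3)) = (zi v).1 + (dlt n v u).1 ∧
      ((zi u).2 : ZMod (n + 3)) = (zi v).2 + (dlt n v u).2 := by
  obtain ⟨p, hp⟩ := h
  obtain ⟨-, -, -, e, f, he, hf, h3, h4⟩ := walk_facts p hv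
  have h1 : dlt n v u = (e, f) := by
    simp only [dlt, Int.cast_sub, h3, h4, add_sub_cancel_left]
    rw [valMinAbs_eq e (by omega), valMinAbs_eq f (by omega)]
  rw [h1]
  dsimp only
  exact ⟨by omega, by omega, h3, h4⟩

theorem dlt_add {r : ℕ} {v u w : Vert T} (h : Near r v u) (h' : Near r u w) 
    (hv : v.n = n) (hr : 4 * r < n + 3) :
    dlt n v w = ((dlt n v u).1 + (dlt n u w).1, (dlt n v u).2 + (dlt n u w).2) := by
  obtain ⟨a1, a2, a3, a4⟩ := dlt_spec h hv (by omega)
  obtain ⟨b1, b2, b3, b4⟩ := dlt_spec h' (h.facts hv).1 (by omega)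
  have key : ∀ e : ℤ, |e| ≤ 2 * r → ((e : ℤ) : ZMod (n + 3)).valMinAbs = e :=
    fun e he => valMinAbs_eq e (by omega)
  rw [← key _ ((abs_add_le _ _).trans (by omega : |(dlt n v u).1| + |(dlt n u w).1| ≤ _)),
    ← key _ ((abs_add_le _ _).trans (by omega : |(dlt n v u).2| + |(dlt n u w).2| ≤ _))]
  rw [dlt]
  congr 2
  · push_cast; rw [b3, a3]; ring
  · push_cast; rw [b4, a4]; ring

theorem dlt_self (v : Vert T) : dlt n v v = (0, 0) := by simp [dlt]

/-- The inverse of a step in the first direction. -/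
noncomputable def unA (v : Vert T) : Vert T :=
  ⟨v.n, (v.z.1 - 1, v.z.2), v.l,
    if v.z.1 - 1 = seam v.n then (T.A v.n v.l).symm v.w else v.w⟩

/-- The inverse of a step in the second direction. -/
noncomputable def unB (v : Vert T) : Vert T :=
  ⟨v.n, (v.z.1, v.z.2 - 1), v.l,
    if v.z.2 - 1 = seam v.n then (T.B v.n v.l).symm v.w else v.w⟩

theorem unA_stepA (v : Vert T) : unA (stepA v) = v := by
  obtain ⟨n', ⟨z1, z2⟩, l, w⟩ := v
  show (⟨n', (z1 + 1 - 1, z2), l, if z1 + 1 - 1 = seam n' then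
    (T.A n' l).symm (if z1 = seam n' then T.A n' l w else w)
    else (if z1 = seam n' then T.A n' l w else w)⟩ : Vert T) = _
  rw [add_sub_cancel_right]
  by_cases hs : z1 = seam n' <;> simp [hs]

theorem unB_stepB (v : Vert T) : unB (stepB v) = v := by
  obtain ⟨n', ⟨z1, z2⟩, l, w⟩ := v
  show (⟨n', (z1, z2 + 1 - 1), l, if z2 + 1 - 1 = seam n' then
    (T.B n' l).symm (if z2 = seam n' then T.B n' l w else w)
    else (if z2 = seam n' then T.B n' l w else w)⟩ : Vert T) = _
  rw [add_sub_cancel_right]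
  by_cases hs : z2 = seam n' <;> simp [hs]

/-- The possible neighbours of a vertex. -/
noncomputable def nbrs (v : Vert T) : Finset (Vert T) := by
  classical
  exact Finset.univ.image (fun g => stepG g v) ∪ {stepA v, stepB v, unA v, unB v} ∪
    (Finset.univ.filter fun x : T.Fib v.n (v.l + 1) => T.par v.n v.l x = v.w).image
      (fun x => (⟨v.n, v.z, v.l + 1, x⟩ : Vert T)) ∪
    match v with
    | ⟨_, _, 0, _⟩ => ∅
    | ⟨n, z, l + 1, w⟩ => {⟨n, z, l, T.par n l w⟩}

theorem mem_nbrs {v u : Vert T} (h : (vertGraph T).Adj v u) : u ∈ nbrs v := by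
  classical
  obtain ⟨-, hr | hr⟩ := (SimpleGraph.fromRel_adj _ _ _).1 h
  · rcases hr with ⟨g, rfl⟩ | rfl | rfl | ⟨x, hx, rfl⟩
    · simp [nbrs]
    · simp [nbrs]
    · simp [nbrs]
    · simp [nbrs, hx]
  · obtain ⟨n', z, l, w⟩ := u
    rcases hr with ⟨g, rfl⟩ | rfl | rfl | ⟨x, hx, rfl⟩
    · simp only [nbrs, Finset.mem_union, Finset.mem_image]
      refine Or.inl (Or.inl (Or.inl ⟨(g.1, -g.2), Finset.mem_univ _, ?_⟩))
      simp [stepG]
      exact act_neg_apply _ _ _
    · simp [nbrs, unA_stepA]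
    · simp [nbrs, unB_stepB]
    · simp [nbrs, hx]

/-- The bound on the number of neighbours. -/
def degBound (T : Tower) : ℕ := Fintype.card Gen + 4 + T.bound + 1

theorem card_nbrs (v : Vert T) : (nbrs v).card ≤ degBound T := by
  classical
  unfold nbrs
  refine (Finset.card_union_le _ _).trans (add_le_add ((Finset.card_union_le _ _).trans
    (add_le_add ((Finset.card_union_le _ _).trans (add_le_add ?_ ?_)) ?_)) ?_)
  · exact Finset.card_image_le
  · exact Finset.card_le_four
  · refine Finset.card_image_le.trans ?_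
    have := T.par_bound v.n v.l v.w
    rwa [Nat.card_eq_fintype_card, Fintype.card_subtype] at this
  · obtain ⟨n', z, _ | l, w⟩ := v <;> simp

/-- The bound on the number of points near a vertex. -/
def ballBound (T : Tower) : ℕ → ℕ
  | 0 => 1
  | r + 1 => 1 + degBound T * ballBound T r

theorem one_le_ballBound (r : ℕ) : 1 ≤ ballBound T r := by
  cases r <;> simp [ballBound]

theorem exists_ball : ∀ (r : ℕ) (v : Vert T),
    ∃ B : Finset (Vert T), B.card ≤ ballBound T r ∧ ∀ u, Near r v u → u ∈ B := by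
  classical
  intro r
  induction r with
  | zero =>
    refine fun v => ⟨{v}, by simp [ballBound], fun u ⟨p, hp⟩ => ?_⟩
    cases p with
    | nil => simp
    | cons h p => simp at hp
  | succ r ih =>
    intro v
    choose B hB hB' using ih
    refine ⟨insert v ((nbrs v).biUnion B), ?_, fun u ⟨p, hp⟩ => ?_⟩
    · refine (Finset.card_insert_le _ _).trans ?_
      rw [ballBound, add_comm 1]
      exact Nat.succ_le_succ ((Finset.card_biUnion_le_card_mul _ _ _ fun x _ => hB x).trans
        (Nat.mul_le_mul_right _ (card_nbrs v)))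
    · cases p with
      | nil => simp
      | cons h p =>
        exact Finset.mem_insert_of_mem (Finset.mem_biUnion.2
          ⟨_, mem_nbrs h, hB' _ _ ⟨p, by simpa using hp⟩⟩)

/-- A colouring separating near points. -/
theorem exists_colour (r : ℕ) (S : Finset (Vert T)) :
    ∃ col : Vert T → Fin (ballBound T r), ∀ v ∈ S, ∀ u ∈ S,
      Near r v u → v ≠ u → col v ≠ col u := by
  classical
  induction S using Finset.induction_on with
  | empty => exact ⟨fun _ => ⟨0, one_le_ballBound r⟩, by simp⟩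
  | @insert a S ha ih =>
    obtain ⟨col, hcol⟩ := ih
    obtain ⟨B, hB, hB'⟩ := exists_ball r a
    obtain ⟨c, hc⟩ : ∃ c : Fin (ballBound T r), c ∉ ((B.filter (· ∈ S)).image col) := by
      by_contra! hall
      have h1 : ballBound T r ≤ (B.filter (· ∈ S)).card := by
        have := Finset.card_image_le (s := B.filter (· ∈ S)) (f := col)
        rwa [Finset.eq_univ_of_forall hall, Finset.card_univ, Fintype.card_fin] at this
      have h2 : (B.filter (· ∈ S)).card < B.card := Finset.card_lt_card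
        (Finset.filter_ssubset.2 ⟨a, hB' a ⟨SimpleGraph.Walk.nil, Nat.zero_le _⟩, ha⟩)
      omega
    refine ⟨Function.update col a c, fun (v : Vert T) hv (u : Vert T) hu huv hne => ?_⟩
    rcases Finset.mem_insert.1 hv with rfl | hv'
    · have hu' : u ∈ S := (Finset.mem_insert.1 hu).resolve_left (Ne.symm hne)
      rw [Function.update_self, Function.update_of_ne (Ne.symm hne)]
      exact fun e => hc (Finset.mem_image.2 ⟨u, by simp [hB' u huv, hu'], e.symm⟩)
    · have hva : v ≠ a := fun e => ha (e ▸ hv')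
      rcases Finset.mem_insert.1 hu with rfl | hu'
      · rw [Function.update_self, Function.update_of_ne hva]
        exact fun e => hc (Finset.mem_image.2 ⟨v, by simp [hB' v huv.symm, hv'], e⟩)
      · rw [Function.update_of_ne hva, Function.update_of_ne (fun e : u = a => ha (e ▸ hu'))]
        exact hcol v hv' u hu' huv hne

end VP212.Bundle
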