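import Vale.Agent.P212.Bundle.Frames

/-!
P212 bundles: the path of invertible matrices over the Rips complex, pointwise.
-/

open Complex (I)
open Matrix

namespace VP212.Bundle

/-- The coordinates on which the path acts. -/
inductive Coord (α β : Type) (D : ℕ) : Type
  | line (i : Fin 2)
  | c0
  | c1
  | b1 (k : β) (d : Fin D)
  | b2 (k : β) (d : Fin D)
  | a (k : α) (d : Fin D)
  deriving DecidableEq, Fintype

/-- `exp(2πix) - 1`. -/
noncomputable def zc (x : ℝ) : ℂ := Complex.exp ((2 * Real.pi * x : ℝ) * I) - 1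

theorem zc_pair (x : ℝ) : zc x + zc (-x) + zc x * zc (-x) = 0 := by
  have h : Complex.exp ((2 * Real.pi * x : ℝ) * I) * Complex.exp ((2 * Real.pi * -x : ℝ) * I) = 1 := by
    rw [← Complex.exp_add]; simp
  simp only [zc]
  linear_combination h

theorem zc_zero : zc 0 = 0 := by simp [zc]

theorem zc_one : zc 1 = 0 := by
  rw [zc, show ((2 * Real.pi * 1 : ℝ) : ℂ) * I = 2 * Real.pi * I by push_cast; ring,
    Complex.exp_two_pi_mul_I, sub_self]

theorem zc_neg_one : zc (-1) = 0 := by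
  have := zc_pair 1
  rwa [zc_one, zero_mul, add_zero, zero_add] at this

@[fun_prop]
theorem continuous_zc : Continuous zc := by unfold zc; fun_prop

section Algebra

variable {ι κ : Type} [Fintype ι] [DecidableEq ι] [Fintype κ] [DecidableEq κ]

/-- One factor of the path. -/
def fac (z : ℂ) (E : Matrix ι ι ℂ) : Matrix ι ι ℂ := 1 + z • E

theorem fac_inv {x : ℝ} {E : Matrix ι ι ℂ} (h : x = 0 ∨ zc x = 0 ∨ E * E = E) :
    fac (zc x) E * fac (zc (-x)) E = 1 ∧ fac (zc (-x)) E * fac (zc x) E = 1 := by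
  have hp := zc_pair x
  have h' : zc x = 0 ∨ E * E = E := by
    rcases h with rfl | h
    · exact Or.inl zc_zero
    · exact h
  rcases h' with h' | h'
  · rw [h', zero_mul, add_zero, zero_add] at hp
    simp [fac, h', hp]
  · constructor
    · simp only [fac, Matrix.mul_add, Matrix.add_mul, Matrix.mul_one, Matrix.one_mul,
        Matrix.smul_mul, Matrix.mul_smul, h']
      conv_rhs => rw [← add_zero (1 : Matrix ι ι ℂ), ← zero_smul ℂ E, ← hp]
      module
    · simp only [fac, Matrix.mul_add, Matrix.add_mul, Matrix.mul_one, Matrix.one_mul,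
        Matrix.smul_mul, Matrix.mul_smul, h']
      conv_rhs => rw [← add_zero (1 : Matrix ι ι ℂ), ← zero_smul ℂ E, ← hp]
      module

omit [DecidableEq ι] [DecidableEq κ] in
theorem proj_orth {V : Matrix ι κ ℂ} {κ' : Type} [Fintype κ'] {W : Matrix ι κ' ℂ}
    (h : Vᴴ * W = 0) : V * Vᴴ * (W * Wᴴ) = 0 ∧ W * Wᴴ * (V * Vᴴ) = 0 := by
  have h' : Wᴴ * V = 0 := by
    rw [← conjTranspose_conjTranspose V, ← conjTranspose_mul, h, conjTranspose_zero]
  constructor
  · rw [Matrix.mul_assoc, ← Matrix.mul_assoc Vᴴ, h, Matrix.zero_mul, Matrix.mul_zero]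
  · rw [Matrix.mul_assoc, ← Matrix.mul_assoc Wᴴ, h', Matrix.zero_mul, Matrix.mul_zero]

omit [DecidableEq ι] in
theorem proj_idem {V : Matrix ι κ ℂ} (h : Vᴴ * V = 1) : V * Vᴴ * (V * Vᴴ) = V * Vᴴ := by
  rw [Matrix.mul_assoc, ← Matrix.mul_assoc Vᴴ, h, Matrix.one_mul]

omit [DecidableEq ι] in
/-- Products of slots with a copy index are copies. -/
theorem colMat_copies {γ J : Type} [Fintype γ] [Fintype J] [DecidableEq γ] {Q : ℕ}
    {k0 : Type} [Fintype k0] (g : k0 → J → γ) (f : k0 → J → ℂ) (c c' : γ) (x y : Fin Q) :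
    (colMat (fun k : k0 × Fin Q => fun j => (g k.1 j, k.2)) (fun k => f k.1) *
      (colMat (fun k : k0 × Fin Q => fun j => (g k.1 j, k.2)) (fun k => f k.1))ᴴ) (c, x) (c', y) =
      if x = y then (colMat g f * (colMat g f)ᴴ) c c' else 0 := by
  have e : ∀ (c : γ) (x : Fin Q) (k : k0) (q : Fin Q),
      colMat (fun k : k0 × Fin Q => fun j => (g k.1 j, k.2)) (fun k => f k.1) (c, x) (k, q) =
        if q = x then colMat g f c k else 0 := by
    intro c x k q
    by_cases hq : q = x <;> simp [colMat, hq]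
  simp only [mul_apply, conjTranspose_apply, Fintype.sum_prod_type, e]
  by_cases hxy : x = y
  · subst hxy
    rw [if_pos rfl]
    refine Finset.sum_congr rfl fun k _ => ?_
    simp
  · rw [if_neg hxy]
    refine Finset.sum_eq_zero fun k _ => Finset.sum_eq_zero fun q _ => ?_
    by_cases hq : q = x <;> simp [hq, hxy]

end Algebra

variable {T : Tower} {n M : ℕ} {R : ℝ} (X : TopLift T n M) (r : ℕ) (S : Finset (Vert T))
  {D : ℕ} (col : Vert T → Fin D) {α β : Type} [Fintype α] [DecidableEq α] [Fintype β]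
  [DecidableEq β] (ea : α → ℤ) (eb : β → ℤ) {Q : ℕ} (q0 : Fin Q)

/-- The index of the matrices. -/
abbrev Ix (α β : Type) (D Q : ℕ) : Type := Coord α β D × Fin Q

variable (α β D) in
/-- The line. -/
noncomputable def VL (w : Vert T) (p : Rips (Vert T) R) : Matrix (Ix α β D Q) Unit ℂ :=
  colMat (fun _ i => (Coord.line i, q0))
    fun _ i => tline (qd n S w (crd p)).1 (qd n S w (crd p)).2 i

variable (α β D) in
/-- The first constant coordinate. -/
def V0 : Matrix (Ix α β D Q) Unit ℂ :=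
  colMat (fun _ (_ : Unit) => (Coord.c0, q0)) fun _ _ => 1

variable (α β D) in
/-- The second constant coordinate. -/
def V1 : Matrix (Ix α β D Q) Unit ℂ :=
  colMat (fun _ (_ : Unit) => (Coord.c1, q0)) fun _ _ => 1

/-- The first copy of the auxiliary powers. -/
noncomputable def VB1 (w : Vert T) (p : Rips (Vert T) R) :
    Matrix (Ix α β D Q) (β × Fin Q) ℂ :=
  colMat (fun k d => (Coord.b1 k.1 d, k.2)) fun k => fr X r S col (eb k.1) w p

/-- The second copy of the auxiliary powers. -/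
noncomputable def VB2 (w : Vert T) (p : Rips (Vert T) R) :
    Matrix (Ix α β D Q) (β × Fin Q) ℂ :=
  colMat (fun k d => (Coord.b2 k.1 d, k.2)) fun k => fr X r S col (eb k.1) w p

/-- The constant powers. -/
noncomputable def VA (w : Vert T) (p : Rips (Vert T) R) :
    Matrix (Ix α β D Q) (α × Fin Q) ℂ :=
  colMat (fun k d => (Coord.a k.1 d, k.2)) fun k => fr X r S col (ea k.1) w p

variable {U : Set (Rips (Vert T) R)} {X r S col}

theorem frame_colMat {ι κ J : Type} [Fintype ι] [DecidableEq ι] [Fintype κ] [DecidableEq κ]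
    [Fintype J] {e : κ → ℤ} {s : κ → J → ι} {f : Vert T → Rips (Vert T) R → κ → J → ℂ}
    (hinj : ∀ k j k' j', s k j = s k' j' → k = k' ∧ j = j')
    (hgood : ∀ w ∈ S, ∀ k j, Good (Dom U w) fun p => f w p k j)
    (h1 : ∀ w ∈ S, ∀ p ∈ Dom U w, ∀ k, ∑ j, f w p k j * starRingEnd ℂ (f w p k j) = 1)
    (ht : ∀ v ∈ S, ∀ u ∈ S, ∀ p, p ∈ Dom U v → p ∈ Dom U u → ∀ k j,
      f v p k j = phase X r S v u (crd p) ^ e k * f u p k j) :
    Frame X r U S e fun w p => colMat s (f w p) := by
  refine ⟨fun w hw i k => ?_, fun w hw p hp => colMat_unit hinj (h1 w hw p hp),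
    fun v hv u hu p hpv hpu => ?_⟩
  · simp only [colMat, Matrix.of_apply]
    refine Good.sum fun j _ => ?_
    split_ifs
    · exact hgood w hw k j
    · exact Good.const 0
  · rw [change, colMat_mul_diagonal]
    congr 1
    funext k j
    rw [ht v hv u hu p hpv hpu, mul_comm]

variable [NeZero M] (h : Piece X r U S col)
include h

theorem frame_VL : Frame X r U S (fun _ : Unit => (M : ℤ)) (VL (n := n) S D α β q0) := by
  refine frame_colMat (fun _ j _ j' e => ⟨Subsingleton.elim _ _, by simpa using e⟩) (fun w _ _ i => ?_)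
    (fun w _ p _ _ => ?_) fun v hv u hu p hpv hpu _ i => h.tline_trans hv hu hpv hpu i
  · refine good_of_continuous ?_ (C := 1) fun p => norm_tline_le _ _ i
    exact (isLineFrame_tline.1 i).comp (by simp only [qd]; fun_prop :
      Continuous fun p : Rips (Vert T) R => qd n S w (crd p))
  · have e := isLineFrame_tline.2.1 (qd n S w (crd p)).1 (qd n S w (crd p)).2
    simp only [Complex.mul_conj, Complex.normSq_eq_norm_sq, ← Complex.ofReal_sum, e,
      Complex.ofReal_one]

omit [NeZero M] h in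
theorem frame_V0 : Frame X r U S (fun _ : Unit => (0 : ℤ)) fun _ _ => V0 D α β q0 :=
  frame_colMat (fun _ _ _ _ _ => ⟨Subsingleton.elim _ _, Subsingleton.elim _ _⟩) (fun _ _ _ _ => Good.const 1)
    (fun _ _ _ _ _ => by simp) fun _ _ _ _ _ _ _ _ _ => by simp

omit [NeZero M] h in
theorem frame_V1 : Frame X r U S (fun _ : Unit => (0 : ℤ)) fun _ _ => V1 D α β q0 :=
  frame_colMat (fun _ _ _ _ _ => ⟨Subsingleton.elim _ _, Subsingleton.elim _ _⟩) (fun _ _ _ _ => Good.const 1)
    (fun _ _ _ _ _ => by simp) fun _ _ _ _ _ _ _ _ _ => by simp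

theorem frame_VB1 : Frame X r U S (fun k : β × Fin Q => eb k.1) (VB1 (α := α) X r S col eb) :=
  frame_colMat (fun k j k' j' e => by
      simp only [Prod.mk.injEq, Coord.b1.injEq] at e; exact ⟨Prod.ext e.1.1 e.2, e.1.2⟩)
    (fun w _ k d => good_of_continuous (continuous_fr X r S col _ w d)
      fun p => norm_fr_le X r S col _ w p d)
    (fun _ _ _ hp k => h.fr_unit (eb k.1) hp)
    fun _ hv _ hu _ hpv hpu k d => h.fr_trans (eb k.1) hv hu hpv hpu d

theorem frame_VB2 : Frame X r U S (fun k : β × Fin Q => eb k.1) (VB2 (α := α) X r S col eb) :=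
  frame_colMat (fun k j k' j' e => by
      simp only [Prod.mk.injEq, Coord.b2.injEq] at e; exact ⟨Prod.ext e.1.1 e.2, e.1.2⟩)
    (fun w _ k d => good_of_continuous (continuous_fr X r S col _ w d)
      fun p => norm_fr_le X r S col _ w p d)
    (fun _ _ _ hp k => h.fr_unit (eb k.1) hp)
    fun _ hv _ hu _ hpv hpu k d => h.fr_trans (eb k.1) hv hu hpv hpu d

theorem frame_VA : Frame X r U S (fun k : α × Fin Q => ea k.1) (VA (β := β) X r S col ea) :=
  frame_colMat (fun k j k' j' e => by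
      simp only [Prod.mk.injEq, Coord.a.injEq] at e; exact ⟨Prod.ext e.1.1 e.2, e.1.2⟩)
    (fun w _ k d => good_of_continuous (continuous_fr X r S col _ w d)
      fun p => norm_fr_le X r S col _ w p d)
    (fun _ _ _ hp k => h.fr_unit (ea k.1) hp)
    fun _ hv _ hu _ hpv hpu k d => h.fr_trans (ea k.1) hv hu hpv hpu d

omit [NeZero M] h in
/-- The columns used by the path are orthogonal to each other. -/
theorem cross (w : Vert T) (p : Rips (Vert T) R) :
    ((VL (n := n) S D α β q0 w p)ᴴ * V0 D α β q0 = 0 ∧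
      (VL (n := n) S D α β q0 w p)ᴴ * V1 D α β q0 = 0 ∧
      (VL (n := n) S D α β q0 w p)ᴴ * VA (Q := Q) (β := β) X r S col ea w p = 0 ∧
      (VL (n := n) S D α β q0 w p)ᴴ * VB1 (Q := Q) (α := α) X r S col eb w p = 0) ∧
    ((V0 D α β q0)ᴴ * V1 D α β q0 = 0 ∧
      (V0 D α β q0)ᴴ * VB1 (Q := Q) (α := α) X r S col eb w p = 0) ∧
    ((V1 D α β q0)ᴴ * VA (Q := Q) (β := β) X r S col ea w p = 0 ∧
      (V1 D α β q0)ᴴ * VB1 (Q := Q) (α := α) X r S col eb w p = 0 ∧
      (V1 D α β q0)ᴴ * VB2 (Q := Q) (α := α) X r S col eb w p = 0) ∧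
    (VB1 (Q := Q) (α := α) X r S col eb w p)ᴴ * VA (Q := Q) (β := β) X r S col ea w p = 0 ∧
    (VB1 (Q := Q) (α := α) X r S col eb w p)ᴴ * VB2 (Q := Q) (α := α) X r S col eb w p = 0 ∧
    (VA (Q := Q) (β := β) X r S col ea w p)ᴴ * VB2 (Q := Q) (α := α) X r S col eb w p = 0 := by
  refine ⟨⟨?_, ?_, ?_, ?_⟩, ⟨?_, ?_⟩, ⟨?_, ?_, ?_⟩, ?_, ?_, ?_⟩ <;>
    exact colMat_orth fun _ _ _ _ => by simp

end VP212.Bundle
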