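import Vale.Agent.P212.Bundle.Lines

/-!
P212 bundles: the cut-off on the Rips complex, its compact support, and continuous paths of
functions vanishing at infinity obtained from jointly continuous compactly supported functions.
-/

open scoped ZeroAtInfty
open Filter Topology

namespace VP212.Bundle

variable {T : Tower} {n : ℕ} {R : ℝ}

theorem finite_low (T : Tower) (n N : ℕ) : {v : Vert T | v.n = n ∧ v.l ≤ N}.Finite := by
  have : {v : Vert T | v.n = n ∧ v.l ≤ N} ⊆ Set.range
      (fun q : Σ l : Fin (N + 1), Grid n × T.Fib n l => (⟨n, q.2.1, q.1, q.2.2⟩ : Vert T)) := by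
    rintro ⟨n', z, l, w⟩ ⟨h1, h2⟩
    dsimp only at h1 h2
    subst h1
    exact ⟨⟨⟨l, by omega⟩, z, w⟩, rfl⟩
  exact (Set.finite_range _).subset this

/-- The vertices of the component up to a level. -/
noncomputable def low (T : Tower) (n N : ℕ) : Finset (Vert T) := (finite_low T n N).toFinset

theorem mem_low {N : ℕ} {v : Vert T} : v ∈ low T n N ↔ v.n = n ∧ v.l ≤ N := by
  simp [low]

theorem sum_crd (p : Rips (Vert T) R) (S : Finset (Vert T)) (h : ∀ v, v ∉ S → crd p v = 0) :
    ∑ v ∈ S, crd p v = 1 := by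
  have h1 := p.2.2.1
  rw [lp.norm_eq_tsum_rpow (by norm_num)] at h1
  simp only [ENNReal.toReal_one, Real.rpow_one, div_one, Real.norm_eq_abs] at h1
  rw [← h1, tsum_eq_sum (s := S) (fun v hv => by simpa [crd] using h v hv)]
  exact Finset.sum_congr rfl fun v _ => (abs_of_nonneg (crd_nonneg p v)).symm

theorem dist_supp (p : Rips (Vert T) R) {v u : Vert T} (hv : crd p v ≠ 0) (hu : crd p u ≠ 0) :
    dist v u ≤ R := p.2.2.2.2 v u hv hu

/-- The cut-off: one below the level `N`, zero far above it and on the other components. -/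
noncomputable def cut (n N : ℕ) (p : Rips (Vert T) R) : ℝ :=
  min 1 (∑ v ∈ low T n N, crd p v * ((N : ℝ) + 1 - v.l))

theorem continuous_cut (N : ℕ) : Continuous (cut (T := T) (R := R) n N) := by
  unfold cut; fun_prop

theorem cut_nonneg (N : ℕ) (p : Rips (Vert T) R) : 0 ≤ cut n N p := by
  refine le_min zero_le_one (Finset.sum_nonneg fun v hv => mul_nonneg (crd_nonneg p v) ?_)
  have : (v.l : ℝ) ≤ N := by exact_mod_cast (mem_low.1 hv).2
  linarith

theorem supp_of_cut {N : ℕ} (hR : R < n + 1) {p : Rips (Vert T) R} (h : cut n N p ≠ 0) :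
    ∀ v, crd p v ≠ 0 → v.n = n ∧ v.l ≤ N + ⌊R⌋₊ := by
  obtain ⟨w, hw, hw0⟩ : ∃ w ∈ low T n N, crd p w ≠ 0 := by
    by_contra! hall
    refine h ?_
    rw [cut, Finset.sum_eq_zero fun v hv => by rw [hall v hv, zero_mul]]
    simp
  obtain ⟨hn, hl⟩ := mem_low.1 hw
  intro v hv
  obtain ⟨a, b, -⟩ := (near_of_dist hn hR (dist_supp p hw0 hv)).facts hn
  exact ⟨a, by omega⟩

theorem wts_of_cut {N : ℕ} (hR : R < n + 1) {p : Rips (Vert T) R} (h : cut n N p ≠ 0) :
    Wts n ⌊R⌋₊ (low T n (N + ⌊R⌋₊)) (crd p) where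
  sum := sum_crd p _ fun v hv => by
    by_contra h0
    exact hv (mem_low.2 (supp_of_cut hR h v h0))
  comp u hu _ := (mem_low.1 hu).1
  near v hv u _ hv0 hu0 := near_of_dist (mem_low.1 hv).1 hR (dist_supp p hv0 hu0)

theorem high_of_cut {N : ℕ} (hR : R < n + 1) {p : Rips (Vert T) R} (h : cut n N p ≠ 0)
    (h1 : cut n N p < 1) : ∀ v, crd p v ≠ 0 → v.n = n ∧ N ≤ v.l + ⌊R⌋₊ := by
  obtain ⟨w, hw0, hw⟩ : ∃ w, crd p w ≠ 0 ∧ N ≤ w.l := by
    by_contra! hall
    refine h1.not_ge (le_min le_rfl ?_)
    have hsum := sum_crd p (low T n N) fun v hv => by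
      by_contra h0
      exact hv (mem_low.2 ⟨(supp_of_cut hR h v h0).1, (hall v h0).le⟩)
    rw [← hsum]
    refine Finset.sum_le_sum fun v hv => le_mul_of_one_le_right (crd_nonneg p v) ?_
    have : (v.l : ℝ) ≤ N := by exact_mod_cast (mem_low.1 hv).2
    linarith
  have hn := (supp_of_cut hR h w hw0).1
  intro v hv
  obtain ⟨a, -, c⟩ := (near_of_dist hn hR (dist_supp p hw0 hv)).facts hn
  exact ⟨a, by omega⟩

theorem isCompact_supported (S : Finset (Vert T)) :
    IsCompact {p : Rips (Vert T) R | ∀ v, v ∉ S → crd p v = 0} := by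
  classical
  let C : Set (S → ℝ) := {f | (∀ u, f u ∈ Set.Icc (0 : ℝ) 1) ∧ ∑ u, f u = 1 ∧
    ∀ u v : S, f u = 0 ∨ f v = 0 ∨ dist u.1 v.1 ≤ R}
  have hC : IsCompact C := by
    have hb : IsCompact (Set.univ.pi fun _ : S => Set.Icc (0 : ℝ) 1) :=
      isCompact_univ_pi fun _ => isCompact_Icc
    refine hb.of_isClosed_subset ?_ fun f hf u _ => hf.1 u
    simp only [C, Set.ofPred_and, Set.ofPred_forall, Set.ofPred_or]
    refine (isClosed_iInter fun u => isClosed_Icc.preimage (continuous_apply u)).inter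
      ((isClosed_eq (by fun_prop) continuous_const).inter ?_)
    exact isClosed_iInter fun u => isClosed_iInter fun v =>
      (isClosed_eq (continuous_apply u) continuous_const).union
        ((isClosed_eq (continuous_apply v) continuous_const).union isClosed_const)
  let F : (S → ℝ) → lp (fun _ : Vert T => ℝ) 1 := fun f => ∑ u : S, f u • lp.single 1 u.1 (1 : ℝ)
  have hF : Continuous F := by fun_prop
  have hFv : ∀ f v, F f v = if h : v ∈ S then f ⟨v, h⟩ else 0 := by
    intro f v
    simp only [F, lp.coeFn_sum, Finset.sum_apply, lp.coeFn_smul, Pi.smul_apply, lp.single_apply,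
      smul_eq_mul]
    split_ifs with hv
    · rw [Finset.sum_eq_single (⟨v, hv⟩ : S)]
      · simp
      · intro u _ hu
        have : v ≠ u.1 := fun e => hu (Subtype.ext e.symm)
        simp [this]
      · simp
    · refine Finset.sum_eq_zero fun u _ => ?_
      have : v ≠ u.1 := fun e => hv (e ▸ u.2)
      simp [this]
  rw [Subtype.isCompact_iff]
  convert hC.image hF using 1
  ext c
  constructor
  · rintro ⟨p, hp, rfl⟩
    refine ⟨fun u => crd p u.1, ⟨fun u => ⟨crd_nonneg p _, crd_le_one p _⟩, ?_, fun u v => ?_⟩, ?_⟩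
    · exact (Finset.sum_coe_sort S (crd p)).trans (sum_crd p S hp)
    · by_cases hu : crd p u.1 = 0
      · exact Or.inl hu
      by_cases hv : crd p v.1 = 0
      · exact Or.inr (Or.inl hv)
      exact Or.inr (Or.inr (dist_supp p hu hv))
    · refine lp.ext (funext fun v => ?_)
      rw [hFv]
      split_ifs with hv
      · rfl
      · exact (hp v hv).symm
  · rintro ⟨f, ⟨hf1, hf2, hf3⟩, rfl⟩
    have h0 : ∀ v, v ∉ S → F f v = 0 := fun v hv => by rw [hFv, dif_neg hv]
    have hmem : F f ∈ Rips (Vert T) R := by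
      refine ⟨fun v => ?_, ?_, S.finite_toSet.subset fun v hv => ?_, fun x y hx hy => ?_⟩
      · rw [hFv]
        split_ifs with hv
        · exact (hf1 _).1
        · exact le_rfl
      · rw [lp.norm_eq_tsum_rpow (by norm_num)]
        simp only [ENNReal.toReal_one, Real.rpow_one, div_one, Real.norm_eq_abs]
        rw [tsum_eq_sum (s := S) (fun v hv => by simp [h0 v hv]), ← hf2, ← Finset.sum_coe_sort S]
        refine Finset.sum_congr rfl fun u _ => ?_
        rw [hFv, dif_pos u.2, abs_of_nonneg (hf1 _).1]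
      · by_contra hv'
        exact hv (h0 v hv')
      · have hxS : x ∈ S := by by_contra hx'; exact hx (h0 x hx')
        have hyS : y ∈ S := by by_contra hy'; exact hy (h0 y hy')
        rw [hFv, dif_pos hxS] at hx
        rw [hFv, dif_pos hyS] at hy
        exact ((hf3 ⟨x, hxS⟩ ⟨y, hyS⟩).resolve_left hx).resolve_left hy
    exact ⟨⟨F f, hmem⟩, h0, rfl⟩

variable {F : ℝ × Rips (Vert T) R → ℂ} {K : Set (Rips (Vert T) R)}

/-- A jointly continuous function with support in a compact set, at one parameter. -/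
noncomputable def toC0 (hF : Continuous F) (hK : IsCompact K) (h0 : ∀ t p, p ∉ K → F (t, p) = 0)
    (t : ℝ) : C₀(Rips (Vert T) R, ℂ) where
  toFun p := F (t, p)
  continuous_toFun := hF.comp (continuous_const.prodMk continuous_id)
  zero_at_infty' := tendsto_nhds_of_eventually_eq
    (mem_cocompact.2 ⟨K, hK, fun p hp => h0 t p hp⟩)

theorem continuous_toC0 (hF : Continuous F) (hK : IsCompact K)
    (h0 : ∀ t p, p ∉ K → F (t, p) = 0) : Continuous (toC0 hF hK h0) := by
  have : CompactSpace K := isCompact_iff_compactSpace.1 hK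
  have hG : Continuous fun t : ℝ => (⟨fun p : K => F (t, p.1),
      hF.comp (continuous_const.prodMk continuous_subtype_val)⟩ : C(K, ℂ)) :=
    ContinuousMap.continuous_of_continuous_uncurry _
      (hF.comp (continuous_fst.prodMk (continuous_subtype_val.comp continuous_snd)))
  refine continuous_iff_continuousAt.2 fun t => ?_
  rw [ContinuousAt, ZeroAtInftyContinuousMap.tendsto_iff_tendstoUniformly,
    Metric.tendstoUniformly_iff]
  intro ε hε
  filter_upwards [Metric.tendsto_nhds.1 (hG.tendsto t) ε hε] with t' ht' p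
  by_cases hp : p ∈ K
  · rw [dist_comm]
    refine lt_of_le_of_lt ?_ ht'
    exact ContinuousMap.dist_apply_le_dist (f := (⟨fun p : K => F (t', p.1),
      hF.comp (continuous_const.prodMk continuous_subtype_val)⟩ : C(K, ℂ)))
      (g := ⟨fun p : K => F (t, p.1),
      hF.comp (continuous_const.prodMk continuous_subtype_val)⟩) (⟨p, hp⟩ : K)
  · show dist (F (t, p)) (F (t', p)) < ε
    rw [h0 t p hp, h0 t' p hp, dist_self]
    exact hε

end VP212.Bundle
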