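import Vale.Agent.P212.Bundle.Ends
import Vale.Agent.P212.Bundle.Support

/-!
P212 bundles: the values of the path at the roots.
-/

open Complex (I)
open Matrix

namespace VP212.Bundle

theorem norm_grid_far {L : ℕ} [NeZero L] (s : ℝ) (a : ZMod L)
    (h0 : a ≠ (⌊s * L⌋ : ℤ)) (h1 : a ≠ (⌊s * L⌋ : ℤ) + 1) :
    1 ≤ (L : ℝ) * ‖(↑s : UnitAddCircle) - ↑((a.val : ℝ) / L)‖ := by
  have hL : (0 : ℝ) < L := by exact_mod_cast Nat.pos_of_ne_zero (NeZero.ne L)
  rw [← AddCircle.coe_sub, UnitAddCircle.norm_eq]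
  generalize round (s - (a.val : ℝ) / L) = k
  have hz : (((a.val : ℤ) + k * L : ℤ) : ZMod L) = a := by simp
  set z : ℤ := (a.val : ℤ) + k * L with hzd
  have hne0 : z ≠ ⌊s * L⌋ := fun e => h0 (by rw [← hz, e])
  have hne1 : z ≠ ⌊s * L⌋ + 1 := fun e => h1 (by rw [← hz, e]; push_cast; rfl)
  have e : (L : ℝ) * |s - (a.val : ℝ) / L - k| = |s * L - z| := by
    rw [← abs_of_pos hL, ← abs_mul, abs_of_pos hL, hzd]
    congr 1
    push_cast
    field_simp
    ring
  rw [e]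
  have hf := Int.floor_le (s * L)
  have hf' := Int.lt_floor_add_one (s * L)
  rcases (by omega : z + 1 ≤ ⌊s * L⌋ ∨ ⌊s * L⌋ + 2 ≤ z) with hz' | hz'
  · have : (z : ℝ) + 1 ≤ ⌊s * L⌋ := by exact_mod_cast hz'
    exact le_trans (by linarith) (le_abs_self _)
  · have : (⌊s * L⌋ : ℝ) + 2 ≤ z := by exact_mod_cast hz'
    exact le_trans (by linarith) (neg_le_abs _)

theorem norm_grid_near {L : ℕ} [NeZero L] (hL3 : 2 ≤ L) (s : ℝ) (i : ℤ) (h : |s * L - i| ≤ 1) :
    (L : ℝ) * ‖(↑s : UnitAddCircle) - ↑((((i : ℤ) : ZMod L).val : ℝ) / L)‖ = |s * L - i| := by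
  have hL : (0 : ℝ) < L := by exact_mod_cast Nat.pos_of_ne_zero (NeZero.ne L)
  obtain ⟨q, hq⟩ : ∃ q : ℤ, (((i : ℤ) : ZMod L).val : ℤ) = i + q * L := by
    refine ⟨-(i / L), ?_⟩
    rw [ZMod.val_intCast, Int.emod_def]
    ring
  have e : (((i : ℤ) : ZMod L).val : ℝ) / L = (i : ℝ) / L + q := by
    have : (((i : ℤ) : ZMod L).val : ℝ) = i + q * L := by exact_mod_cast hq
    rw [this]; field_simp
  have e2 : ((((i : ℤ) : ZMod L).val : ℝ) / L : ℝ) = ((i : ℝ) / L + q) := e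
  rw [← AddCircle.coe_sub, e2, ← sub_sub, QuotientAddGroup.mk_sub,
    show ((q : ℝ) : UnitAddCircle) = 0 from (AddCircle.coe_eq_zero_iff _).2 ⟨q, by simp⟩, sub_zero]
  have hs : s - (i : ℝ) / L = (s * L - i) / L := by field_simp
  rw [hs, (AddCircle.norm_coe_eq_abs_iff _ one_ne_zero).2, abs_div, abs_of_pos hL,
    mul_div_cancel₀ _ hL.ne']
  rw [abs_div, abs_of_pos hL, abs_one, div_le_iff₀ hL]
  have : (2 : ℝ) ≤ L := by exact_mod_cast hL3
  linarith

theorem hat_eq {L : ℕ} [NeZero L] (hL : 2 ≤ L) (s : ℝ) (a : ZMod L) :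
    hat L (↑s) a = if a = (⌊s * L⌋ : ℤ) then 1 - Int.fract (s * L)
      else if a = (⌊s * L⌋ : ℤ) + 1 then Int.fract (s * L) else 0 := by
  have hf := Int.fract_nonneg (s * L)
  have hf' := Int.fract_lt_one (s * L)
  have hfd : Int.fract (s * L) = s * L - ⌊s * L⌋ := (Int.self_sub_floor _).symm
  split_ifs with h0 h1
  · have habs : |s * L - (⌊s * L⌋ : ℤ)| = Int.fract (s * L) := by
      rw [← hfd, abs_of_nonneg hf]
    rw [hat, h0, norm_grid_near hL s _ (by rw [habs]; linarith), habs, max_eq_right (by linarith)]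
  · have habs : |s * L - ((⌊s * L⌋ + 1 : ℤ) : ℝ)| = 1 - Int.fract (s * L) := by
      push_cast
      rw [abs_of_nonpos (by linarith)]
      linarith
    have hc : a = ((⌊s * L⌋ + 1 : ℤ) : ZMod L) := by rw [h1]; push_cast; rfl
    rw [hat, hc, norm_grid_near hL s _ (by rw [habs]; linarith), habs,
      max_eq_right (by linarith)]
    ring
  · have := norm_grid_far s a h0 h1
    rw [hat, max_eq_left (by linarith)]

theorem sum_hat {L : ℕ} [NeZero L] (hL : 2 ≤ L) (s : ℝ) (g : ZMod L → ℝ) :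
    ∑ a, hat L (↑s) a * g a = (1 - Int.fract (s * L)) * g (⌊s * L⌋ : ℤ) +
      Int.fract (s * L) * g ((⌊s * L⌋ : ℤ) + 1) := by
  have : Fact (1 < L) := ⟨by omega⟩
  have hne : ((⌊s * L⌋ : ℤ) : ZMod L) + 1 ≠ (⌊s * L⌋ : ℤ) := fun e => by simp at e
  rw [← Finset.sum_subset (Finset.subset_univ {((⌊s * L⌋ : ℤ) : ZMod L), ((⌊s * L⌋ : ℤ) : ZMod L) + 1})]
  · rw [Finset.sum_pair hne.symm, hat_eq hL, hat_eq hL, if_pos rfl, if_neg hne, if_pos rfl]
  · intro a _ ha
    simp only [Finset.mem_insert, Finset.mem_singleton, not_or] at ha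
    rw [hat_eq hL, if_neg ha.1, if_neg ha.2, zero_mul]

variable {T : Tower} {n : ℕ} {R : ℝ} {D : ℕ} {α β : Type} [Fintype α] [DecidableEq α] [Fintype β]
  [DecidableEq β] {Q : ℕ} (q0 : Fin Q)

variable (D α β) in
/-- The column of the standard line. -/
noncomputable def colL (s t : ℝ) : Matrix (Ix α β D Q) Unit ℂ :=
  colMat (fun _ i => (Coord.line i, q0)) fun _ i => tline s t i

omit [Fintype α] [Fintype β] in
theorem colL_shift (s t : ℝ) (k l : ℤ) :
    colL D α β q0 (s + k) (t + l) * (colL D α β q0 (s + k) (t + l))ᴴ =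
      colL D α β q0 s t * (colL D α β q0 s t)ᴴ := by
  set g := Complex.exp (2 * Real.pi * I * (k * t : ℝ)) with hg
  have e : colL D α β q0 (s + k) (t + l) = g • colL D α β q0 s t := by
    ext i j
    simp only [colL, colMat, Matrix.of_apply, Matrix.smul_apply, smul_eq_mul, tline_shift,
      Finset.mul_sum, mul_ite, mul_zero, ← hg]
  have h1 : g * starRingEnd ℂ g = 1 := by
    rw [hg, show 2 * (Real.pi : ℂ) * I * ((k * t : ℝ) : ℂ) = ((2 * Real.pi * (k * t) : ℝ) : ℂ) * I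
      by push_cast; ring, Complex.mul_conj, Complex.normSq_eq_norm_sq, Complex.norm_exp_ofReal_mul_I]
    simp
  rw [e, conjTranspose_smul, Matrix.smul_mul, Matrix.mul_smul, smul_smul, Complex.star_def, h1,
    one_smul]

variable (D α β) in
/-- The line on the torus, in the coordinates of the path. -/
noncomputable def Ptor (x : Torus) : Matrix (Ix α β D Q) (Ix α β D Q) ℂ :=
  colL D α β q0 (AddCircle.equivIco 1 0 x.1) (AddCircle.equivIco 1 0 x.2) *
    (colL D α β q0 (AddCircle.equivIco 1 0 x.1) (AddCircle.equivIco 1 0 x.2))ᴴ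

omit [Fintype α] [Fintype β] in
theorem Ptor_coe (s t : ℝ) :
    Ptor D α β q0 (↑s, ↑t) = colL D α β q0 s t * (colL D α β q0 s t)ᴴ := by
  have key : ∀ u : ℝ, ∃ k : ℤ, (AddCircle.equivIco 1 0 (u : UnitAddCircle) : ℝ) = u + k := by
    intro u
    have h : (((AddCircle.equivIco 1 0 (u : UnitAddCircle) : ℝ)) : UnitAddCircle) = u :=
      (AddCircle.equivIco 1 0).symm_apply_apply _
    rw [← sub_eq_zero, ← AddCircle.coe_sub, AddCircle.coe_eq_zero_iff] at h
    obtain ⟨k, hk⟩ := h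
    exact ⟨k, by rw [zsmul_one] at hk; linarith⟩
  obtain ⟨k, hk⟩ := key s
  obtain ⟨l, hl⟩ := key t
  rw [Ptor, hk, hl, colL_shift]

theorem isLinePlus_Ptor : IsLinePlus 1 ∅ (Ptor D α β q0) := by
  refine ⟨fun s t k => colL D α β q0 s t k (), ⟨fun k => ?_, fun s t => ?_, fun s t k => ?_,
    fun s t k => ?_⟩, fun s t i hi => by simp at hi, fun s t i j => ?_⟩
  · simp only [colL, colMat, Matrix.of_apply]
    refine continuous_finsetSum _ fun i _ => ?_
    split_ifs
    · exact isLineFrame_tline.1 i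
    · exact continuous_const
  · have e : (colL D α β q0 s t)ᴴ * colL D α β q0 s t = 1 :=
      colMat_unit (fun _ j _ j' e => ⟨Subsingleton.elim _ _, by simpa using e⟩) fun _ => by
        have e := isLineFrame_tline.2.1 s t
        simp only [Complex.mul_conj, Complex.normSq_eq_norm_sq, ← Complex.ofReal_sum, e,
          Complex.ofReal_one]
    have e2 := congrFun (congrFun e ()) ()
    simp only [Matrix.mul_apply, conjTranspose_apply, Complex.star_def, Complex.conj_mul',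
      Matrix.one_apply_eq] at e2
    exact_mod_cast e2
  · simp only [colL, colMat, Matrix.of_apply, isLineFrame_tline.2.2.1]
  · simp only [colL, colMat, Matrix.of_apply, isLineFrame_tline.2.2.2, Finset.mul_sum, mul_ite,
      mul_zero]
  · rw [Ptor_coe, Matrix.mul_apply]
    simp

theorem Ptor_PC (x : Torus) :
    Ptor D α β q0 x * PC q0 = 0 ∧ PC q0 * Ptor D α β q0 x = 0 :=
  proj_orth (colMat_orth fun _ _ _ _ => by simp)

omit [Fintype α] [Fintype β] in
theorem PC_eq_coordProj :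
    PC (D := D) (α := α) (β := β) q0 = coordProj {(Coord.c0, q0)} := by
  classical
  ext i j
  simp only [PC, V0, colMat, Matrix.mul_apply, conjTranspose_apply, Matrix.of_apply, coordProj,
    Matrix.diagonal_apply, Finset.univ_unique, Finset.sum_singleton, Finset.mem_singleton]
  by_cases hi : i = (Coord.c0, q0) <;> by_cases hj : j = (Coord.c0, q0) <;>
    simp [hi, hj, eq_comm]

/-- The point of the torus seen by the path at a root point is that point. -/
theorem root_point (s t : ℝ) {p : Rips (Vert T) R} (h : IsRootPoint T n (↑s, ↑t) p)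
    (S : Finset (Vert T)) (hS : ∀ z : Grid n, rootVert T ⟨n, z⟩ ∈ S) :
    ∃ u ∈ S, 0 < crd p u ∧ ∃ k l : ℤ,
      qd n S u (crd p) = (s + k, t + l) := by
  classical
  obtain ⟨hg, h0⟩ := h
  have hL : 2 ≤ n + 3 := by omega
  set a : ℤ := ⌊s * (n + 3 : ℕ)⌋ with ha
  set b : ℤ := ⌊t * (n + 3 : ℕ)⌋ with hb
  set u := rootVert T ⟨n, ((a : ZMod (n + 3)), (b : ZMod (n + 3)))⟩ with hu
  have hinj : Function.Injective fun z : Grid n => rootVert T ⟨n, z⟩ := by
    intro z z' e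
    simp only [rootVert, Vert.mk.injEq, true_and] at e
    exact eq_of_heq e.1
  have hsum : ∀ f : Vert T → ℝ, ∑ v ∈ S, crd p v * f v =
      ∑ z : Grid n, gridCoord n (↑s, ↑t) z * f (rootVert T ⟨n, z⟩) := by
    intro f
    rw [← Finset.sum_subset (s₁ := Finset.univ.image fun z : Grid n => rootVert T ⟨n, z⟩),
      Finset.sum_image hinj.injOn]
    · exact Finset.sum_congr rfl fun z _ => by rw [crd, hg z]
    · intro v hv
      obtain ⟨z, -, rfl⟩ := Finset.mem_image.1 hv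
      exact hS z
    · intro v _ hv
      rw [crd, h0 v fun ⟨z, hz⟩ => hv (Finset.mem_image.2 ⟨z, Finset.mem_univ _, hz⟩), zero_mul]
  have hhat : ∀ (r : ℝ), hat (n + 3) (↑r) ((⌊r * (n + 3 : ℕ)⌋ : ℤ) : ZMod (n + 3)) =
      1 - Int.fract (r * (n + 3 : ℕ)) := fun r => by rw [hat_eq hL, if_pos rfl]
  refine ⟨u, hS _, ?_, ?_⟩
  · rw [crd, hu, hg, gridCoord, hhat, hhat]
    exact mul_pos (by linarith [Int.fract_lt_one (s * (n + 3 : ℕ))])
      (by linarith [Int.fract_lt_one (t * (n + 3 : ℕ))])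
  have hv1 : ((1 : ZMod (n + 3))).valMinAbs = 1 := by
    simpa using valMinAbs_eq (L := n + 3) 1 (by simp; omega)
  have hone : ∀ r : ℝ, ∑ c, hat (n + 3) (↑r) c = 1 := fun r => by
    simpa using sum_hat hL r (fun _ => 1)
  have hd1 : ∀ z : Grid n, ((dlt n u (rootVert T ⟨n, z⟩)).1 : ℤ) = (z.1 - (a : ZMod (n + 3))).valMinAbs := by
    intro z
    rw [hu]
    simp [dlt, zi, rootVert]
  have hd2 : ∀ z : Grid n, ((dlt n u (rootVert T ⟨n, z⟩)).2 : ℤ) = (z.2 - (b : ZMod (n + 3))).valMinAbs := by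
    intro z
    rw [hu]
    simp [dlt, zi, rootVert]
  have e1 : ∑ v ∈ S, crd p v * ((dlt n u v).1 : ℝ) = Int.fract (s * (n + 3 : ℕ)) := by
    rw [hsum fun v => ((dlt n u v).1 : ℝ), Fintype.sum_prod_type]
    simp only [gridCoord, hd1, mul_assoc, ← Finset.mul_sum, ← Finset.sum_mul, hone, one_mul]
    rw [sum_hat hL, ← ha]
    simp [hv1]
  have e2 : ∑ v ∈ S, crd p v * ((dlt n u v).2 : ℝ) = Int.fract (t * (n + 3 : ℕ)) := by
    rw [hsum fun v => ((dlt n u v).2 : ℝ), Fintype.sum_prod_type, Finset.sum_comm]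
    simp only [gridCoord, hd2, mul_comm (hat (n + 3) (↑s : UnitAddCircle) _), mul_right_comm _ _ (Int.cast _ : ℝ),
      ← Finset.mul_sum, hone, mul_one]
    rw [sum_hat hL, ← hb]
    simp [hv1]
  have hv : ∀ i : ℤ, ∃ q : ℤ, (((i : ℤ) : ZMod (n + 3)).val : ℤ) = i + q * ((n + 3 : ℕ) : ℤ) :=
    fun i => ⟨-(i / ((n + 3 : ℕ) : ℤ)), by rw [ZMod.val_intCast, Int.emod_def]; ring⟩
  obtain ⟨k, hk⟩ := hv a
  obtain ⟨l, hl⟩ := hv b
  refine ⟨k, l, Prod.ext ?_ ?_⟩
  · have : (((a : ZMod (n + 3)).val : ℤ) : ℝ) = (a : ℝ) + k * (n + 3 : ℕ) := by exact_mod_cast hk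
    simp only [qd, e1]
    rw [hu]
    simp only [zi, rootVert, this, Int.fract, ← ha]
    push_cast
    field_simp
    ring
  · have : (((b : ZMod (n + 3)).val : ℤ) : ℝ) = (b : ℝ) + l * (n + 3 : ℕ) := by exact_mod_cast hl
    simp only [qd, e2]
    rw [hu]
    simp only [zi, rootVert, this, Int.fract, ← hb]
    push_cast
    field_simp
    ring

end VP212.Bundle
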